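import Vale.Agent.P082.Global.Spec
import Vale.Agent.P104.Type.Abelian
import Vale.Agent.P104.Type.Trace

/-!
# Every central projection dominates a piece on which a cocycle is solved

A piece has two orthogonal isometries, or a trace and no abelian projection, or a trace and matrix
units over a commutative corner.
-/

noncomputable section

namespace Vale.Agent.P082

open P132.Homog.TypeIII (Finite' PI isProj_star isProj_mul_self)
open Vale.Agent.P085 (IsNormalTrace)
open Vale.Agent.P104.Patch (Alg)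
open Vale.Agent.P104.Red
open Vale.Agent.P104.Sim (NoAbelian)
open scoped InnerProductSpace

universe u

variable {H : Type u} [NormedAddCommGroup H] [InnerProductSpace ℂ H] [CompleteSpace H]
variable {M : VonNeumannAlgebra H} {z : H →L[ℂ] H}

section Maps

variable (hz : IsCentral M z)

lemma comp_mul {x y : H →L[ℂ] H} (hx : x ∈ M) : comp hz (x * y) = comp hz x * comp hz y :=
  ext0_injective hz (by
    rw [ext0_mul, ext0_comp, ext0_comp, ext0_comp]
    have hzz := isProj_mul_self hz.proj
    calc z * (x * y) * z = (z * x) * (y * z) := by simp only [mul_assoc]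
      _ = (z * x * z) * (y * z) := by
          rw [mul_assoc z x z, ← hz.comm x hx, ← mul_assoc z z x, hzz]
      _ = z * x * z * (z * y * z) := by
          simp only [mul_assoc]
          congr 2
          rw [← mul_assoc z z, hzz])

/-- The compression to a piece. -/
def piMap : Alg M →L[ℂ] Alg (pieceAlg hz) :=
  LinearMap.mkContinuous
    { toFun := fun x => ⟨comp hz (x : H →L[ℂ] H), comp_mem hz x.2⟩
      map_add' := fun x y => Subtype.ext (by
        refine ext0_injective hz ?_
        change z * ((x : H →L[ℂ] H) + y) * z = _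
        rw [mul_add, add_mul]
        exact (ContinuousLinearMap.ext fun v => by simp [ext0, comp, toSp]))
      map_smul' := fun c x => Subtype.ext (by
        refine ext0_injective hz ?_
        change z * (c • (x : H →L[ℂ] H)) * z = _
        rw [mul_smul_comm, smul_mul_assoc]
        exact (ContinuousLinearMap.ext fun v => by simp [ext0, comp, toSp])) } 1
    fun x => by rw [one_mul]; exact norm_comp_le hz (x : H →L[ℂ] H)

/-- The inclusion of a piece. -/
def inMap : Alg (pieceAlg hz) →L[ℂ] Alg M :=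
  LinearMap.mkContinuous
    { toFun := fun w => ⟨ext0 hz (w : sp z →L[ℂ] sp z), (mem_pieceAlg hz).1 w.2⟩
      map_add' := fun x y => Subtype.ext (ContinuousLinearMap.ext fun v => rfl)
      map_smul' := fun c x => Subtype.ext (ContinuousLinearMap.ext fun v => rfl) } 1
    fun w => by rw [one_mul]; exact norm_ext0_le hz (w : sp z →L[ℂ] sp z)

lemma piMap_mul (x y : Alg M) : piMap hz (x * y) = piMap hz x * piMap hz y :=
  Subtype.ext (comp_mul hz x.2)

lemma piMap_one : piMap hz (1 : Alg M) = 1 :=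
  Subtype.ext (ext0_injective hz (ContinuousLinearMap.ext fun v => by
    change z (z v) = z v
    exact DFunLike.congr_fun (isProj_mul_self hz.proj) v))

lemma piMap_inMap (x : Alg (pieceAlg hz)) : piMap hz (inMap hz x) = x :=
  Subtype.ext (comp_ext0 (hz := hz) (x : sp z →L[ℂ] sp z))

lemma inMap_mul (x : Alg (pieceAlg hz)) (y : Alg M) :
    inMap hz x * y = inMap hz (x * piMap hz y) :=
  Subtype.ext (by
    change ext0 hz (x : sp z →L[ℂ] sp z) * (y : H →L[ℂ] H) = ext0 hz (_ * comp hz _)
    rw [ext0_mul, ext0_comp, mul_assoc z, ← mul_assoc _ z, ext0_z, ← hz.comm _ y.2,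
      ← mul_assoc, ext0_z])

lemma inMap_piMap (x : Alg M) : inMap hz (piMap hz x) = (⟨z, hz.proj.1⟩ : Alg M) * x :=
  Subtype.ext (by
    change ext0 hz (comp hz _) = z * (x : H →L[ℂ] H)
    rw [ext0_comp, mul_assoc, ← hz.comm _ x.2, ← mul_assoc, isProj_mul_self hz.proj])

/-- A local solution gives a solved piece. -/
theorem solv_of_local {ξ : ℕ → sp z} (h : IsNormalTrace (pieceAlg hz) ξ)
    (hloc : (trOf h).LocalOut) {k : ℕ} (f : Cochain (Alg M) (k + 1))
    (hf : ∀ a, dHoch f a = 0) :
    Solv ((k : ℝ) + 5) f (⟨z, hz.proj.1⟩ : Alg M) := by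
  obtain ⟨g, hg, hga⟩ := hloc (Alg M) (piMap hz) (inMap hz) (piMap_mul hz) (piMap_one hz)
    (fun x => norm_comp_le hz _) (fun x => norm_ext0_le hz _) (piMap_inMap hz) (inMap_mul hz)
    k f hf
  refine ⟨(inMap hz).compContinuousMultilinearMap g, ?_, fun a => ?_⟩
  · refine ((inMap hz).norm_compContinuousMultilinearMap_le g).trans ?_
    calc ‖inMap hz‖ * ‖g‖ ≤ 1 * ‖g‖ := by
          gcongr
          exact LinearMap.mkContinuous_norm_le _ zero_le_one _
      _ ≤ _ := by rw [one_mul]; exact hg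
  set Z : Alg M := ⟨z, hz.proj.1⟩
  have hzy : ∀ x, Z * inMap hz x = inMap hz x := fun x => Subtype.ext (z_ext0 hz _)
  have hyz : ∀ x, inMap hz x * Z = inMap hz x := fun x => Subtype.ext (ext0_z hz _)
  have hcomm : ∀ x : Alg M, Z * x = x * Z := fun x => Subtype.ext (hz.comm _ x.2)
  have hl : ∀ x y, inMap hz (piMap hz x * y) = Z * (x * inMap hz y) := fun x y => by
    rw [← piMap_inMap hz y, ← piMap_mul, inMap_piMap, piMap_inMap]
  have hr : ∀ x y, inMap hz (y * piMap hz x) = Z * (inMap hz y * x) := fun x y => by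
    rw [← piMap_inMap hz y, ← piMap_mul, inMap_piMap, piMap_inMap]
  rw [← inMap_piMap hz, hga a]
  simp only [dHoch, dPi, map_add, map_sum, map_zsmul, hl, hr, mul_add, Finset.mul_sum,
    mul_smul_comm, id_eq, ContinuousLinearMap.compContinuousMultilinearMap_coe, Function.comp_apply,
    hzy]

end Maps

/-- An abelian projection has a commutative corner. -/
lemma corner_comm {p : H →L[ℂ] H} (hp : P085.IsProj M p)
    (hab : ∀ q, P085.IsProj M q → p * q = q → cs M q * p = q) {x y : H →L[ℂ] H} (hx : x ∈ M)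
    (hy : y ∈ M) : p * x * p * (p * y * p) = p * y * p * (p * x * p) := by
  have h1 : IsCentral M (1 : H →L[ℂ] H) := IsCentral.one
  have hpp := isProj_mul_self hp
  have key : ∀ a b : H →L[ℂ] H, a ∈ M → b ∈ M → IsSelfAdjoint a → IsSelfAdjoint b →
      p * a = a → a * p = a → p * b = b → b * p = b → a * b = b * a := by
    intro a b ha hb has hbs hpa _ hpb hbp
    refine eq_of_sub_eq_zero (norm_le_zero_iff.1 (le_of_forall_pos_le_add fun ε hε => ?_))
    obtain ⟨m, l, zz, hzz, happ⟩ := exists_central_approx hp h1 hab ha has hpa (one_mul a)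
      (δ := ε / (2 * (‖b‖ + 1))) (by positivity)
    have hcm : (∑ k, l k • (zz k * p)) * b = b * ∑ k, l k • (zz k * p) := by
      rw [Finset.sum_mul, Finset.mul_sum]
      refine Finset.sum_congr rfl fun k _ => ?_
      rw [smul_mul_assoc, mul_smul_comm, mul_assoc, hpb, ← mul_assoc b (zz k),
        ← (hzz k).comm b hb, mul_assoc (zz k) b, hbp]
    set s := ∑ k, l k • (zz k * p)
    have e : a * b - b * a = (a - s) * b - b * (a - s) := by
      rw [sub_mul, mul_sub, hcm]; abel
    rw [e, zero_add]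
    refine (norm_sub_le _ _).trans ((add_le_add (norm_mul_le _ _) (norm_mul_le _ _)).trans ?_)
    calc ‖a - s‖ * ‖b‖ + ‖b‖ * ‖a - s‖
        ≤ ε / (2 * (‖b‖ + 1)) * (‖b‖ + 1) + (‖b‖ + 1) * (ε / (2 * (‖b‖ + 1))) := by
          gcongr <;> linarith [norm_nonneg b]
      _ = ε := by field_simp; ring
  -- split into self-adjoint parts
  let re : (H →L[ℂ] H) → (H →L[ℂ] H) := fun t => (1 / 2 : ℂ) • (t + star t)
  let im : (H →L[ℂ] H) → (H →L[ℂ] H) := fun t => (-Complex.I / 2) • (t - star t)
  have hdec : ∀ t : H →L[ℂ] H, re t + Complex.I • im t = t := fun t => by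
    simp only [re, im, smul_smul]
    rw [show Complex.I * (-Complex.I / 2) = 1 / 2 by
      rw [← mul_div_assoc, mul_neg, Complex.I_mul_I, neg_neg]]
    module
  have hparts : ∀ t, t ∈ M → p * t = t → t * p = t →
      (re t ∈ M ∧ IsSelfAdjoint (re t) ∧ p * re t = re t ∧ re t * p = re t) ∧
      (im t ∈ M ∧ IsSelfAdjoint (im t) ∧ p * im t = im t ∧ im t * p = im t) := by
    intro t ht h1 h2
    have h3 : p * star t = star t := by
      conv_rhs => rw [← h2]
      rw [star_mul, isProj_star hp]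
    have h4 : star t * p = star t := by
      conv_rhs => rw [← h1]
      rw [star_mul, isProj_star hp]
    refine ⟨⟨M.toStarSubalgebra.smul_mem (add_mem ht (star_mem ht)) _, ?_, ?_, ?_⟩,
      M.toStarSubalgebra.smul_mem (sub_mem ht (star_mem ht)) _, ?_, ?_, ?_⟩
    · simp only [re, IsSelfAdjoint, star_smul, star_add, star_star]
      rw [show star (1 / 2 : ℂ) = 1 / 2 by simp, add_comm]
    · simp only [re, mul_smul_comm, mul_add, h1, h3]
    · simp only [re, smul_mul_assoc, add_mul, h2, h4]
    · simp only [im, IsSelfAdjoint, star_smul, star_sub, star_star]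
      rw [show star (-Complex.I / 2) = -(-Complex.I / 2) by simp [neg_div]]
      module
    · simp only [im, mul_smul_comm, mul_sub, h1, h3]
    · simp only [im, smul_mul_assoc, sub_mul, h2, h4]
  have hc : ∀ t, t ∈ M → p * (p * t * p) = p * t * p ∧ p * t * p * p = p * t * p := fun t _ => by
    simp only [← mul_assoc, hpp]
    exact ⟨trivial, by rw [mul_assoc, hpp]⟩
  have hm : ∀ t, t ∈ M → p * t * p ∈ M := fun t ht => mul_mem (mul_mem hp.1 ht) hp.1
  obtain ⟨⟨a1, a2, a3, a4⟩, b1, b2, b3, b4⟩ := hparts _ (hm x hx) (hc x hx).1 (hc x hx).2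
  obtain ⟨⟨c1, c2, c3, c4⟩, d1, d2, d3, d4⟩ := hparts _ (hm y hy) (hc y hy).1 (hc y hy).2
  rw [← hdec (p * x * p), ← hdec (p * y * p)]
  simp only [mul_add, add_mul, mul_smul_comm, smul_mul_assoc]
  rw [key _ _ a1 c1 a2 c2 a3 a4 c3 c4, key _ _ a1 d1 a2 d2 a3 a4 d3 d4,
    key _ _ b1 c1 b2 c2 b3 b4 c3 c4, key _ _ b1 d1 b2 d2 b3 b4 d3 d4]
  module

/-- Matrix units over an abelian projection, on a central piece. -/
lemma exists_units_of_abelian {z₀ p : H →L[ℂ] H} (hz₀ : IsCentral M z₀) (hfin : Finite' M z₀)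
    (hp : P085.IsProj M p) (hp0 : p ≠ 0) (hzp : z₀ * p = p)
    (hab : ∀ q, P085.IsProj M q → p * q = q → cs M q * p = q) :
    ∃ (c : H →L[ℂ] H) (n : ℕ) (v : Fin n → (H →L[ℂ] H)), IsCentral M c ∧ z₀ * c = c ∧ c ≠ 0 ∧
      (∀ i, v i ∈ M) ∧ (∀ i j, star (v i) * v j = if i = j then c * p else 0) ∧
      ∑ i, v i * star (v i) = c := by
  classical
  obtain ⟨z, n, w, hz, hz0z, hzne, hw, hwo, hwsum⟩ := exists_spread hz₀ hfin hp hp0 hzp
  obtain ⟨c, hc, hzc, hc0, hcase⟩ : ∃ c, IsCentral M c ∧ z * c = c ∧ c ≠ 0 ∧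
      ∀ i, c * (star (w i) * w i) = c * p ∨ c * w i = 0 := by
    suffices h : ∀ s : Finset (Fin n), ∃ c, IsCentral M c ∧ z * c = c ∧ c ≠ 0 ∧
        ∀ i ∈ s, (c * (star (w i) * w i) = c * p ∨ c * w i = 0) by
      obtain ⟨c, h1, h2, h3, h4⟩ := h Finset.univ
      exact ⟨c, h1, h2, h3, fun i => h4 i (Finset.mem_univ i)⟩
    intro s
    induction s using Finset.induction with
    | empty => exact ⟨z, hz, isProj_mul_self hz.proj, hzne, by simp⟩
    | insert a s _ ih =>
      obtain ⟨c, hc, hzc, hc0, hs⟩ := ih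
      have hq : p * (star (w a) * w a) = star (w a) * w a := by
        have := congrArg star (hw a).2
        rw [star_mul, isProj_star hp] at this
        rw [← mul_assoc, this]
      have hqc : IsCentral M (cs M (star (w a) * w a)) := cs_isCentral (hw a).1.init.1
      by_cases h : c * cs M (star (w a) * w a) = 0
      · refine ⟨c, hc, hzc, hc0, fun i hi => ?_⟩
        rcases Finset.mem_insert.1 hi with rfl | hi
        · right
          rw [← (hw i).1.eq, ← mul_assoc, hc.comm _ (hw i).1.mem, mul_assoc,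
            ← cs_mul_self (M := M) (star (w i) * w i), ← mul_assoc c, h, zero_mul, mul_zero]
        · exact hs i hi
      · refine ⟨_, hc.mul hqc, by rw [← mul_assoc, hzc], h, fun i hi => ?_⟩
        rcases Finset.mem_insert.1 hi with rfl | hi
        · left
          rw [mul_assoc, cs_mul_self, mul_assoc, hab _ (hw i).1.init hq]
        · rcases hs i hi with h' | h'
          · left
            rw [hc.comm _ hqc.proj.1, mul_assoc, h', ← mul_assoc]
          · right
            rw [hc.comm _ hqc.proj.1, mul_assoc, h', mul_zero]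
  let s : Finset (Fin n) := Finset.univ.filter fun i => c * w i ≠ 0
  let v : Fin s.card → (H →L[ℂ] H) := fun j => c * w (s.equivFin.symm j)
  refine ⟨c, s.card, v, hc, by rw [← hzc, ← mul_assoc, hz0z], hc0,
    fun j => mul_mem hc.proj.1 (hw _).1.mem, fun i j => ?_, ?_⟩
  · split_ifs with hij
    · subst hij
      show star (c * w _) * (c * w _) = c * p
      rw [(hc.mul_pi (hw (s.equivFin.symm i)).1).2.1]
      exact (hcase _).resolve_right (Finset.mem_filter.1 (s.equivFin.symm i).2).2
    · show star (c * w _) * (c * w _) = 0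
      rw [star_mul, isProj_star hc.proj, mul_assoc, ← mul_assoc c c, isProj_mul_self hc.proj,
        hc.comm _ (hw _).1.mem, ← mul_assoc,
        hwo _ _ fun e => hij (s.equivFin.symm.injective (Subtype.ext e)), zero_mul]
  · calc ∑ j, v j * star (v j) = ∑ i ∈ s, (c * w i) * star (c * w i) := by
          rw [← Finset.sum_coe_sort s]
          exact s.equivFin.symm.sum_comp fun i : s => (c * w i) * star (c * w i)
      _ = ∑ i, (c * w i) * star (c * w i) :=
          Finset.sum_subset (Finset.subset_univ s) fun i _ hi => by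
            have : c * w i = 0 := by simpa [s] using hi
            rw [this, zero_mul]
      _ = ∑ i, c * (w i * star (w i)) :=
          Finset.sum_congr rfl fun i _ => (hc.mul_pi (hw i).1).2.2
      _ = c := by rw [← Finset.mul_sum, hwsum, ← hz.comm c hc.proj.1, hzc]

/-- Every central projection dominates a solved piece, given the local theorems. -/
theorem exists_solved_piece
    (hloc : ∀ (L : Type u) [NormedAddCommGroup L] [InnerProductSpace ℂ L] [CompleteSpace L]
      (N : VonNeumannAlgebra L) (ξ : ℕ → L) (h : IsNormalTrace N ξ),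
      (trOf h).MeanOut → (trOf h).LocalOut)
    (hII : ∀ (L : Type u) [NormedAddCommGroup L] [InnerProductSpace ℂ L] [CompleteSpace L]
      (N : VonNeumannAlgebra L) (ξ : ℕ → L) (h : IsNormalTrace N ξ),
      NoAbelian N → (trOf h).MeanOut)
    (hI : ∀ (L : Type u) [NormedAddCommGroup L] [InnerProductSpace ℂ L] [CompleteSpace L]
      (N : VonNeumannAlgebra L), TypeIOut (Alg N) (lp (fun _ : ℕ => L) 2))
    {k : ℕ} {C : ℝ} (hC : (k : ℝ) + 5 ≤ C) (f : Cochain (Alg M) (k + 1))
    (hf : ∀ a, dHoch f a = 0)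
    (hhalv : ∀ z : Alg M, IsCentral M (z : H →L[ℂ] H) → Halvable M (z : H →L[ℂ] H) → Solv C f z)
    {z₀ : H →L[ℂ] H} (hz₀ : IsCentral M z₀) (h0 : z₀ ≠ 0) :
    ∃ (z : H →L[ℂ] H) (hz : IsCentral M z),
      z₀ * z = z ∧ z ≠ 0 ∧ Solv C f (⟨z, hz.proj.1⟩ : Alg M) := by
  classical
  have mono : ∀ {z : Alg M}, Solv ((k : ℝ) + 5) f z → Solv C f z := fun ⟨g, hg, hga⟩ =>
    ⟨g, hg.trans (mul_le_mul_of_nonneg_right hC (norm_nonneg _)), hga⟩
  rcases finite_or_halvable hz₀ with hfin | ⟨z, hz, hzz, hne, hh⟩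
  swap
  · exact ⟨z, hz, hzz, hne, hhalv _ hz hh⟩
  by_cases hna : ∀ p, P085.IsProj M p → p ≠ 0 → z₀ * p = p →
      ∃ v ∈ M, v ≠ 0 ∧ p * v * p = v ∧ v * star v * v = v ∧ star v * v * (v * star v) = 0
  · obtain ⟨z, hz, hzz, hne, ξ, h1, h2, h3, h4, h5⟩ := exists_trace_piece hz₀ h0 hfin
    have htr := trace_comp hz h1 h2 h3 h4 h5
    exact ⟨z, hz, hzz, hne, mono (solv_of_local hz htr (hloc _ _ _ htr (hII _ _ _ htr
      (noAbelian_comp hz fun p hp hp0 hzp => hna p hp hp0 (by rw [← hzp, ← mul_assoc, hzz])))) f hf)⟩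
  push Not at hna
  obtain ⟨p, hp, hp0, hzp, hno⟩ := hna
  have hab : ∀ q, P085.IsProj M q → p * q = q → cs M q * p = q := fun q hq hpq =>
    abelian_of_no_link hp (fun v hv h1 h2 h3 => by
      by_contra hv0
      exact hno v hv hv0 h1 h2 h3) hq hpq
  obtain ⟨c, n, v, hc, hz0c, hc0, hvM, hvv, hsum⟩ := exists_units_of_abelian hz₀ hfin hp hp0 hzp hab
  obtain ⟨z, hz, hcz, hne, ξ, h1, h2, h3, h4, h5⟩ :=
    exists_trace_piece hc hc0 (finite'_of_le hz₀.proj hc.proj hz0c hfin)
  have htr := trace_comp hz h1 h2 h3 h4 h5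
  have hzc : z * c = z := by rw [hz.comm c hc.proj.1, hcz]
  refine ⟨z, hz, by rw [← hcz, ← mul_assoc, hz0c], hne, mono (solv_of_local hz htr (hloc _ _ _ htr
    (hI _ _ (trOf htr) n ⟨comp hz (c * p), comp_mem hz (mul_mem hc.proj.1 hp.1)⟩
      (fun i => ⟨comp hz (v i), comp_mem hz (hvM i)⟩) (fun i j => Subtype.ext ?_) (Subtype.ext ?_)
      fun x y => Subtype.ext ?_)) f hf)⟩
  · show star (comp hz (v i)) * comp hz (v j) = _
    rw [← comp_star, ← comp_mul hz (star_mem (hvM i)), hvv]
    split_ifs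
    · rfl
    · exact ext0_injective hz (by rw [ext0_comp, mul_zero, zero_mul]; exact ContinuousLinearMap.ext fun w => rfl)
  · show ((∑ i, (⟨comp hz (v i), _⟩ : Alg (pieceAlg hz)) * star _ : Alg (pieceAlg hz)) :
      sp z →L[ℂ] sp z) = 1
    rw [AddSubmonoidClass.coe_finsetSum]
    refine ext0_injective hz ?_
    have e : ∀ i, comp hz (v i) * star (comp hz (v i)) = comp hz (v i * star (v i)) := fun i => by
      rw [← comp_star, ← comp_mul hz (hvM i)]
    calc ext0 hz (∑ i, comp hz (v i) * star (comp hz (v i))) = z * (∑ i, v i * star (v i)) * z := by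
          rw [Finset.sum_congr rfl fun i _ => e i, Finset.mul_sum, Finset.sum_mul]
          refine Eq.trans ?_ (Finset.sum_congr rfl fun i _ => ext0_comp (hz := hz) _)
          exact ContinuousLinearMap.ext fun w => by simp [ext0]
      _ = z := by rw [hsum, hzc, isProj_mul_self hz.proj]
      _ = ext0 hz 1 := (ContinuousLinearMap.ext fun w => by simp [ext0, toSp])
  · show comp hz (c * p) * (x : sp z →L[ℂ] sp z) * comp hz (c * p) *
        (comp hz (c * p) * (y : sp z →L[ℂ] sp z) * comp hz (c * p)) = _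
    refine ext0_injective hz ?_
    simp only [MulMemClass.coe_mul, ext0_mul, ext0_comp]
    have hx := (mem_pieceAlg hz).1 x.2
    have hy := (mem_pieceAlg hz).1 y.2
    have e : z * (c * p) * z = z * p := by
      rw [← mul_assoc, hzc, mul_assoc, ← hz.comm p hp.1, ← mul_assoc, isProj_mul_self hz.proj]
    have hmove : ∀ a, a ∈ M → z * p * a * (z * p) = z * (p * a * p) := fun a ha => by
      rw [mul_assoc, ← mul_assoc a, ← hz.comm a ha, mul_assoc z a p, mul_assoc z p,
        ← mul_assoc p z, ← hz.comm p hp.1, mul_assoc z p, ← mul_assoc z z, isProj_mul_self hz.proj,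
        mul_assoc p a p]
    rw [e, hmove _ hx, hmove _ hy]
    have hm : ∀ a, a ∈ M → p * a * p ∈ M := fun a ha => mul_mem (mul_mem hp.1 ha) hp.1
    have hzz : ∀ a b, a ∈ M → z * a * (z * b) = z * (a * b) := fun a b ha => by
      rw [mul_assoc, ← mul_assoc a, ← hz.comm a ha, mul_assoc z a b, ← mul_assoc z z,
        isProj_mul_self hz.proj]
    rw [hzz _ _ (hm _ hx), hzz _ _ (hm _ hy), corner_comm hp hab hx hy]

/-- Every bounded cocycle of every von Neumann algebra is a coboundary, given the local theorems. -/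
theorem vanishes_of_modules
    (hloc : ∀ (L : Type u) [NormedAddCommGroup L] [InnerProductSpace ℂ L] [CompleteSpace L]
      (N : VonNeumannAlgebra L) (ξ : ℕ → L) (h : IsNormalTrace N ξ),
      (trOf h).MeanOut → (trOf h).LocalOut)
    (hII : ∀ (L : Type u) [NormedAddCommGroup L] [InnerProductSpace ℂ L] [CompleteSpace L]
      (N : VonNeumannAlgebra L) (ξ : ℕ → L) (h : IsNormalTrace N ξ),
      NoAbelian N → (trOf h).MeanOut)
    (hI : ∀ (L : Type u) [NormedAddCommGroup L] [InnerProductSpace ℂ L] [CompleteSpace L]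
      (N : VonNeumannAlgebra L), TypeIOut (Alg N) (lp (fun _ : ℕ => L) 2))
    (hhalv : HalvOut M) (hglue : GlueOut M) (k : ℕ) : Vanishes (Alg M) k := by
  intro f hf
  obtain ⟨C, hC⟩ := hhalv k
  refine hglue k (max C ((k : ℝ) + 5)) f fun z₀ hz₀ h0 => ?_
  obtain ⟨z, hz, hzz, hne, hs⟩ := exists_solved_piece hloc hII hI (le_max_right C _) f hf
    (fun z hz hh => by
      obtain ⟨g, hg, hga⟩ := hC f hf z hz hh
      exact ⟨g, hg.trans (mul_le_mul_of_nonneg_right (le_max_left _ _) (norm_nonneg _)), hga⟩)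
    hz₀ fun h => h0 (Subtype.ext h)
  exact ⟨⟨z, hz.proj.1⟩, hz, Subtype.ext hzz, fun h => hne (congrArg Subtype.val h), hs⟩

end Vale.Agent.P082
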