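import Vale.Agent.P082.Global.Spec
import Vale.Agent.P104.Sim.Patch
import Vale.Agent.P104.Sim.Split
import Vale.Agent.P104.Sim.CenterExp

/-!
# (G1) atoms free over the centre

One round of freeness suffices. Let `d` have centre valued Haar moments and let `s` be a conjugate
of `d` free over the centre from the centred parts of the products of two given unitaries and from
the powers of `d`. Then `v j = s ^ (j + 1) * d * s ^ (-(j + 1))`: in the value of a reduced word
every power of `d` and every given element stands between powers of `s`, and a scalar gap either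
leaves a non-zero power of `s` or merges two powers of `d` of the same sign.
-/

noncomputable section

namespace Vale.Agent.P082

open scoped InnerProductSpace
open Vale.Agent.P104.Patch

universe u

/-- Without abelian projections there are partitions into `2 ^ l` cells of equal trace. -/
theorem exists_equalPartition {H : Type u} [NormedAddCommGroup H] [InnerProductSpace ℂ H]
    [CompleteSpace H] {M : VonNeumannAlgebra H} {ξ : ℕ → H} (h : P085.IsNormalTrace M ξ)
    (hna : P104.Sim.NoAbelian M) (l : ℕ) :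
    ∃ f : Fin (2 ^ l) → Alg M, IsEqualPartition h f := by
  obtain ⟨E, hE⟩ := P104.Sim.centerExpOut.{u} H M ξ h
  obtain ⟨q, hq, hqo, hqs⟩ :=
    P104.Sim.splitOut.{u} H M ξ E h hE hna 1 ⟨one_mem _, IsStarProjection.one _⟩ l
  have hEeq : ∀ a : Alg M, (cE h a : H →L[ℂ] H) = E (a : H →L[ℂ] H) := by
    intro a
    have hc : IsCentral (⟨E a, hE.mem _ a.2⟩ : Alg M) := fun b =>
      Subtype.ext (hE.central _ a.2 _ b.2)
    have e := cE_eq h hc (a := a) fun z hz => by
      have hzc : ∀ y ∈ M, (z : H →L[ℂ] H) * y = y * z := fun y hy =>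
        congrArg (fun b : Alg M => (b : H →L[ℂ] H)) (hz ⟨y, hy⟩)
      rw [tau_eq, tau_eq]
      change P085.vecState ξ ((z : H →L[ℂ] H) * E a) = P085.vecState ξ ((z : H →L[ℂ] H) * a)
      rw [← hE.center_mul _ z.2 hzc _ a.2, hE.trace _ (mul_mem z.2 a.2)]
    rw [e]
  refine ⟨fun i => ⟨q i, (hq i).1.1⟩, fun i => ?_, fun i j hij => Subtype.ext (hqo i j hij),
    Subtype.ext ?_, fun i => Subtype.ext ?_⟩
  · exact ⟨Subtype.ext (hq i).1.2.isIdempotentElem.eq,
      Subtype.ext (hq i).1.2.isSelfAdjoint.star_eq⟩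
  · rw [AddSubmonoidClass.coe_finsetSum]
    exact hqs
  · rw [hEeq]
    change E (q i) = ((2 ^ l : ℕ) : ℂ)⁻¹ • (1 : H →L[ℂ] H)
    rw [(hq i).2, hE.map_one, one_div]
    push_cast
    rfl

variable {H : Type u} [NormedAddCommGroup H] [InnerProductSpace ℂ H] [CompleteSpace H]
variable {M : VonNeumannAlgebra H} {ξ : ℕ → H} {h : P085.IsNormalTrace M ξ}

section Root

variable {n : ℕ} {f : Fin n → Alg M}

/-- The standard root of unity. -/
def zeta (n : ℕ) : ℂ := Complex.exp (2 * Real.pi * Complex.I / n)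

/-- The powers of the Haar element of a partition. -/
def haarPow (f : Fin n → Alg M) (m : ℤ) : Alg M := ∑ k : Fin n, zeta n ^ (m * ((k : ℕ) : ℤ)) • f k

variable (hf : IsEqualPartition h f)
include hf

theorem haarPow_mul (a b : ℤ) : haarPow f a * haarPow f b = haarPow f (a + b) := by
  simp only [haarPow, Finset.sum_mul, Finset.mul_sum, smul_mul_assoc, mul_smul_comm]
  refine Finset.sum_congr rfl fun j _ => ?_
  rw [Finset.sum_eq_single j]
  · rw [(hf.proj j).isIdempotentElem.eq, smul_smul, ← zpow_add₀ (show zeta n ≠ 0 from Complex.exp_ne_zero _)]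
    congr 2
    ring
  · intro k _ hk; rw [hf.orth _ _ hk, smul_zero]
  · simp

theorem haarPow_zero : haarPow f 0 = 1 := by
  simp only [haarPow, zero_mul, zpow_zero, one_smul, hf.sum]

theorem star_haarPow (m : ℤ) : star (haarPow f m) = haarPow f (-m) := by
  simp only [haarPow, star_sum, star_smul, (hf.proj _).isSelfAdjoint.star_eq]
  refine Finset.sum_congr rfl fun k _ => ?_
  congr 1
  rw [Complex.star_def, neg_mul, zpow_neg, Complex.inv_eq_conj]
  rw [norm_zpow, zeta, show (2 * Real.pi * Complex.I / n : ℂ)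
    = ((2 * Real.pi / n : ℝ) : ℂ) * Complex.I by push_cast; ring, Complex.norm_exp_ofReal_mul_I,
    one_zpow]

theorem cE_haarPow (hn : n ≠ 0) {m : ℤ} (hm : ¬ (n : ℤ) ∣ m) : cE h (haarPow f m) = 0 := by
  rw [← cTrace_apply, haarPow, map_sum]
  simp only [map_smul, cTrace_apply, hf.trace, smul_smul, ← Finset.sum_smul, ← Finset.sum_mul]
  have hz : IsPrimitiveRoot (zeta n) n := Complex.isPrimitiveRoot_exp n hn
  have h1 : zeta n ^ m ≠ 1 := mt (hz.zpow_eq_one_iff_dvd m).1 hm
  have h2 : ∑ k : Fin n, zeta n ^ (m * ((k : ℕ) : ℤ)) = 0 := by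
    simp only [zpow_mul, zpow_natCast]
    rw [Fin.sum_univ_eq_sum_range (fun k => (zeta n ^ m) ^ k) n, geom_sum_eq h1, ← zpow_natCast,
      ← zpow_mul, mul_comm m, zpow_mul, zpow_natCast, hz.pow_eq_one, one_zpow, sub_self, zero_div]
  rw [h2, zero_mul, zero_smul]

/-- The powers as unitaries. -/
def haarU (m : ℤ) : unitary (Alg M) :=
  ⟨haarPow f m, Unitary.mem_iff.2 ⟨by rw [star_haarPow hf, haarPow_mul hf, neg_add_cancel,
    haarPow_zero hf], by rw [star_haarPow hf, haarPow_mul hf, add_neg_cancel, haarPow_zero hf]⟩⟩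

end Root

section Words

variable {n : ℕ}

/-- The powers of the conjugate of the Haar element. -/
def sPow (f : Fin n → Alg M) (u : unitary (Alg M)) (k : ℤ) : Alg M :=
  (u : Alg M) * haarPow f k * star (u : Alg M)

theorem sPow_mul {f : Fin n → Alg M} (hf : IsEqualPartition h f) (u : unitary (Alg M)) (a b : ℤ) :
    sPow f u a * sPow f u b = sPow f u (a + b) := by
  rw [sPow, sPow, sPow, ← haarPow_mul hf]
  simp only [mul_assoc]
  rw [← mul_assoc (star (u : Alg M)) (u : Alg M), Unitary.star_mul_self_of_mem u.2, one_mul]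

theorem sPow_zero {f : Fin n → Alg M} (hf : IsEqualPartition h f) (u : unitary (Alg M)) :
    sPow f u 0 = 1 := by
  rw [sPow, haarPow_zero hf, mul_one, Unitary.mul_star_self_of_mem u.2]

/-- An alternating word with letters in `X` and `Y` that does not end in a letter of `X`. -/
def Ok (X Y : Finset (Alg M)) (Q : List (Alg M ⊕ Alg M)) : Prop :=
  Alt Q ∧ (∀ a ∈ Q.getLast?, a.isLeft = false) ∧ ∀ a ∈ Q, Sum.elim (· ∈ X) (· ∈ Y) a

variable {X Y : Finset (Alg M)}

theorem Ok.pair {Q : List (Alg M ⊕ Alg M)} (hQ : Ok X Y Q) {x y : Alg M} (hx : x ∈ X)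
    (hy : y ∈ Y) : Ok X Y (Q ++ [Sum.inl x, Sum.inr y]) := by
  obtain ⟨h1, h2, h3⟩ := hQ
  refine ⟨List.isChain_append.2 ⟨h1, by simp, fun a ha b hb => ?_⟩, by simp, fun a ha => ?_⟩
  · simp only [List.head?_cons, Option.mem_def, Option.some.injEq] at hb
    subst hb
    simp [h2 a ha]
  · rcases List.mem_append.1 ha with ha | ha
    · exact h3 a ha
    · rcases List.mem_cons.1 ha with rfl | ha
      · exact hx
      · rw [List.mem_singleton.1 ha]; exact hy

theorem Ok.single {Q : List (Alg M ⊕ Alg M)} (hQ : Ok X Y Q) {x : Alg M} (hx : x ∈ X) :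
    Alt (Q ++ [Sum.inl x]) ∧ ∀ a ∈ Q ++ [Sum.inl x], Sum.elim (· ∈ X) (· ∈ Y) a := by
  obtain ⟨h1, h2, h3⟩ := hQ
  refine ⟨List.isChain_append.2 ⟨h1, by simp, fun a ha b hb => ?_⟩, fun a ha => ?_⟩
  · simp only [List.head?_cons, Option.mem_def, Option.some.injEq] at hb
    subst hb
    simp [h2 a ha]
  · rcases List.mem_append.1 ha with ha | ha
    · exact h3 a ha
    · rw [List.mem_singleton.1 ha]; exact hx

theorem ok_nil : Ok X Y [] := ⟨List.isChain_nil, by simp, by simp⟩

theorem ok_inr {y : Alg M} (hy : y ∈ Y) : Ok X Y [Sum.inr y] :=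
  ⟨List.isChain_singleton _, by simp, by simpa using hy⟩

theorem val_append (u : unitary (Alg M)) (Q R : List (Alg M ⊕ Alg M)) :
    val u (Q ++ R) = val u Q * val u R := by
  simp only [val, List.map_append, List.prod_append]

theorem val_pair (f : Fin n → Alg M) (u : unitary (Alg M)) (x : Alg M) (k : ℤ) :
    val u [Sum.inl x, Sum.inr (haarPow f k)] = x * sPow f u k := by
  simp [val, sPow]

theorem norm_tau_center_le (W : Alg M) {z : Alg M} (hz : IsCentral z) :
    ‖tau h (z * W)‖ ≤ ‖z‖ * ‖evec h (cE h W)‖ := by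
  rw [← tau_cE h W hz, tau]
  refine (norm_inner_le_norm _ _).trans ?_
  rw [norm_evec_one, one_mul]
  exact evec_mul_le h _ _

/-- Splitting off the centre valued part of a factor. -/
theorem tau_split (P b R z : Alg M) :
    tau h (z * (P * (b * R)))
      = tau h (z * cE h b * (P * R)) + tau h (z * (P * ((b - cE h b) * R))) := by
  have e : P * (cE h b * R) = cE h b * (P * R) := by
    rw [← mul_assoc, ← cE_central h b P, mul_assoc]
  rw [mul_assoc z (cE h b), ← e, ← tau_add, ← mul_add, ← mul_add, ← add_mul, add_sub_cancel]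

end Words

section Walk

variable {n p N : ℕ}

/-- The exponent of the conjugating power of an index. -/
def cExp (j : Fin N) : ℤ := ((j : ℕ) : ℤ) + 1

/-- The sign of an atom. -/
def sgnA (a : Atom p N) : ℤ := if a.1.2 then -1 else 1

/-- The given unitary on the left of an atom. -/
def leftA (U : Fin p → unitary (Alg M)) (a : Atom p N) : Alg M :=
  if a.1.2 then star ((a.1.1.elim 1 U : unitary (Alg M)) : Alg M) else 1

/-- The given unitary on the right of an atom. -/
def rightA (U : Fin p → unitary (Alg M)) (a : Atom p N) : Alg M :=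
  if a.1.2 then 1 else ((a.1.1.elim 1 U : unitary (Alg M)) : Alg M)

/-- The value of an atom. -/
def atomA (f : Fin n → Alg M) (U : Fin p → unitary (Alg M)) (u : unitary (Alg M)) (a : Atom p N) :
    Alg M :=
  leftA U a * sPow f u (cExp a.2) * haarPow f (sgnA a) * sPow f u (-cExp a.2) * rightA U a

theorem cExp_spec (D : ℕ) (j : Fin N) : cExp j ≠ 0 ∧ (cExp j).natAbs ≤ N + D := by
  have := j.isLt
  simp only [cExp]
  omega

theorem sgnA_spec (a : Atom p N) :
    sgnA a ≠ 0 ∧ (sgnA a).natAbs = 1 ∧ 0 < sgnA a * sgnA a := by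
  unfold sgnA
  split_ifs <;> simp

/-- The hypotheses of the walk: letters, factors and freeness. -/
structure Setup (h : P085.IsNormalTrace M ξ) (f : Fin n → Alg M) (U : Fin p → unitary (Alg M))
    (u : unitary (Alg M)) (N D : ℕ) (ε : ℝ) (X Y S B : Finset (Alg M)) : Prop where
  part : IsEqualPartition h f
  eps : 0 ≤ ε
  one : (1 : Alg M) ∈ S
  left : ∀ a : Atom p N, leftA U a ∈ S
  right : ∀ a : Atom p N, rightA U a ∈ S
  prod : ∀ r ∈ S, ∀ l ∈ S, r * l ∈ B
  cE_le : ∀ b ∈ B, ‖cE h b‖ ≤ 1
  centred : ∀ b ∈ B, b - cE h b ∈ X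
  powX : ∀ k : ℤ, k ≠ 0 → k.natAbs ≤ N + D → haarPow f k ∈ X
  powY : ∀ k : ℤ, k ≠ 0 → k.natAbs ≤ N + D → haarPow f k ∈ Y
  word : ∀ (W : List (Alg M ⊕ Alg M)) (z : Alg M), IsCentral z → W ≠ [] →
    W.length ≤ 4 * D + 8 → Alt W → (∀ a ∈ W, Sum.elim (· ∈ X) (· ∈ Y) a) →
    ‖tau h (z * val u W)‖ ≤ ‖z‖ * ε

/-- Walking along a word. -/
theorem Setup.walk {f : Fin n → Alg M} {U : Fin p → unitary (Alg M)} {u : unitary (Alg M)}
    {D : ℕ} {ε : ℝ} {X Y S B : Finset (Alg M)} (st : Setup h f U u N D ε X Y S B) :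
    ∀ (l : List (Atom p N)) (r : Alg M), r ∈ S → ∀ (Q : List (Alg M ⊕ Alg M)) (j : Fin N)
      (m : ℤ) (z : Alg M), IsCentral z → Ok X Y Q → m ≠ 0 → m.natAbs + l.length ≤ D →
      Q.length + 4 * l.length + 3 ≤ 4 * D + 8 →
      l.IsChain (fun a b => a.2 = b.2 → a.1.2 = b.1.2) →
      (∀ a ∈ l.head?, a.2 = j → 0 < m * sgnA a) →
      ‖tau h (z * (val u Q * haarPow f m * sPow f u (-cExp j) *
        (r * (l.map (atomA f U u)).prod)))‖ ≤ ‖z‖ * (2 ^ (l.length + 1) * ε) := by
  intro l
  induction l with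
  | nil =>
    intro r hr Q j m z hz hQ hm hml hQl _ _
    have hrB : r ∈ B := by simpa using st.prod r hr 1 st.one
    have hQ1 : Ok X Y (Q ++ [Sum.inl (haarPow f m), Sum.inr (haarPow f (-cExp j))]) :=
      hQ.pair (st.powX m hm (by simp at hml; omega)) (st.powY _ (by have := (cExp_spec D j).1; omega)
        (by have := (cExp_spec D j).2; omega))
    set Q1 := Q ++ [Sum.inl (haarPow f m), Sum.inr (haarPow f (-cExp j))] with hQ1def
    have hlen1 : Q1.length ≤ 4 * D + 7 := by
      rw [hQ1def, List.length_append]; simp at hQl ⊢; omega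
    have hval1 : val u Q * haarPow f m * sPow f u (-cExp j) = val u Q1 := by
      rw [hQ1def, val_append, val_pair, mul_assoc]
    simp only [List.map_nil, List.prod_nil]
    rw [hval1, tau_split]
    refine (norm_add_le _ _).trans ?_
    have e2 : val u Q1 * ((r - cE h r) * 1) = val u (Q1 ++ [Sum.inl (r - cE h r)]) := by
      rw [val_append u Q1]; simp [val]
    rw [mul_one, e2]
    have hz' : IsCentral (z * cE h r) := fun b => by
      rw [mul_assoc, cE_central h r b, ← mul_assoc, hz b, mul_assoc]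
    have b1 := st.word Q1 (z * cE h r) hz' (by simp [hQ1def]) (by omega) hQ1.1 hQ1.2.2
    have b2 := st.word (Q1 ++ [Sum.inl (r - cE h r)]) z hz (by simp)
      (by rw [List.length_append, List.length_singleton]; omega)
      (hQ1.single (st.centred r hrB)).1 (hQ1.single (st.centred r hrB)).2
    have b3 : ‖z * cE h r‖ ≤ ‖z‖ :=
      (norm_mul_le _ _).trans (mul_le_of_le_one_right (norm_nonneg z) (st.cE_le r hrB))
    rw [List.length_nil, zero_add, pow_one]
    nlinarith [mul_le_mul_of_nonneg_right b3 st.eps]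
  | cons a l ih =>
    intro r hr Q j m z hz hQ hm hml hQl hch hhead
    set b := r * leftA U a with hbdef
    have hb : b ∈ B := st.prod r hr _ (st.left a)
    set C := (l.map (atomA f U u)).prod with hC
    set Rst := sPow f u (cExp a.2) * (haarPow f (sgnA a) * (sPow f u (-cExp a.2) * (rightA U a * C))) with hRst
    have e : r * ((a :: l).map (atomA f U u)).prod = b * Rst := by
      rw [List.map_cons, List.prod_cons, atomA, hbdef, hRst, hC]
      simp only [mul_assoc]
    rw [e, tau_split]
    refine (norm_add_le _ _).trans ?_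
    have hz' : IsCentral (z * cE h b) := fun x => by
      rw [mul_assoc, cE_central h b x, ← mul_assoc, hz x, mul_assoc]
    have hzn : ‖z * cE h b‖ ≤ ‖z‖ :=
      (norm_mul_le _ _).trans (mul_le_of_le_one_right (norm_nonneg z) (st.cE_le b hb))
    have hcl := List.isChain_cons.1 hch
    have hσ1 := sgnA_spec a
    have hnext : ∀ m' : ℤ, 0 < m' * sgnA a → ∀ a' ∈ l.head?, a'.2 = a.2 → 0 < m' * sgnA a' := by
      intro m' hm' a' ha' he
      have hf' := hcl.1 a' ha' he.symm
      have : sgnA a' = sgnA a := by simp only [sgnA, hf']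
      rwa [this]
    simp only [List.length_cons] at hml hQl ⊢
    have hmX : haarPow f m ∈ X := st.powX m hm (by omega)
    have hcY : haarPow f (-cExp j) ∈ Y :=
      st.powY _ (by have := (cExp_spec D j).1; omega) (by have := (cExp_spec D j).2; omega)
    have hσsq := hσ1.2.2
    -- the centre valued part
    have h1 : ‖tau h (z * cE h b * (val u Q * haarPow f m * sPow f u (-cExp j) * Rst))‖
        ≤ ‖z * cE h b‖ * (2 ^ (l.length + 1) * ε) := by
      by_cases he : a.2 = j
      · have hsgn := hhead a rfl he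
        have e1 : val u Q * haarPow f m * sPow f u (-cExp j) * Rst = val u Q * haarPow f (m + sgnA a) *
            sPow f u (-cExp a.2) * (rightA U a * C) := by
          rw [hRst, ← he]
          simp only [mul_assoc]
          rw [← mul_assoc (sPow f u (-cExp a.2)) (sPow f u (cExp a.2)), sPow_mul st.part, neg_add_cancel,
            sPow_zero st.part, one_mul, ← haarPow_mul st.part, mul_assoc]
        have hpos : 0 < (m + sgnA a) * sgnA a := by rw [add_mul]; linarith
        rw [e1]
        exact ih (rightA U a) (st.right a) Q a.2 (m + sgnA a) _ hz' hQ (fun h0 => by simp [h0] at hpos)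
          (by omega) (by omega) hcl.2 (hnext _ hpos)
      · have hne : cExp a.2 - cExp j ≠ 0 := fun h0 => he (Fin.ext (by simp only [cExp] at h0; omega))
        have hle : (cExp a.2 - cExp j).natAbs ≤ N + D := by
          have := a.2.isLt; have := j.isLt
          simp only [cExp]; omega
        have e1 : val u Q * haarPow f m * sPow f u (-cExp j) * Rst =
            val u (Q ++ [Sum.inl (haarPow f m), Sum.inr (haarPow f (cExp a.2 - cExp j))]) *
              haarPow f (sgnA a) * sPow f u (-cExp a.2) * (rightA U a * C) := by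
          rw [hRst, val_append, val_pair]
          simp only [mul_assoc]
          rw [← mul_assoc (sPow f u (-cExp j)) (sPow f u (cExp a.2)), sPow_mul st.part,
            neg_add_eq_sub]
        rw [e1]
        exact ih (rightA U a) (st.right a) _ a.2 (sgnA a) _ hz' (hQ.pair hmX (st.powY _ hne hle)) hσ1.1
          (by omega) (by simp; omega) hcl.2 (hnext _ hσsq)
    -- the centred part
    have h2 : ‖tau h (z * (val u Q * haarPow f m * sPow f u (-cExp j) * ((b - cE h b) * Rst)))‖
        ≤ ‖z‖ * (2 ^ (l.length + 1) * ε) := by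
      have e1 : val u Q * haarPow f m * sPow f u (-cExp j) * ((b - cE h b) * Rst) =
          val u (Q ++ [Sum.inl (haarPow f m), Sum.inr (haarPow f (-cExp j))] ++
            [Sum.inl (b - cE h b), Sum.inr (haarPow f (cExp a.2))]) *
            haarPow f (sgnA a) * sPow f u (-cExp a.2) * (rightA U a * C) := by
        rw [hRst, val_append, val_append, val_pair, val_pair]
        simp only [mul_assoc]
      rw [e1]
      exact ih (rightA U a) (st.right a) _ a.2 (sgnA a) z hz
        ((hQ.pair hmX hcY).pair (st.centred b hb) (st.powY _ (cExp_spec D a.2).1 (cExp_spec D a.2).2)) hσ1.1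
        (by omega) (by simp; omega) hcl.2 (hnext _ hσsq)
    have h3 := mul_le_mul_of_nonneg_right hzn (show (0 : ℝ) ≤ 2 ^ (l.length + 1) * ε from mul_nonneg (by positivity) st.eps)
    calc _ ≤ ‖z * cE h b‖ * (2 ^ (l.length + 1) * ε) + ‖z‖ * (2 ^ (l.length + 1) * ε) :=
          add_le_add h1 h2
      _ ≤ _ := by rw [pow_succ _ (l.length + 1)]; linarith

end Walk

/-- The free conjugate with all the letters. -/
theorem exists_setup (h : P085.IsNormalTrace M ξ) (hna : P104.Sim.NoAbelian M) {n p N D : ℕ}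
    {f : Fin n → Alg M} (hf : IsEqualPartition h f) (hbig : N + D + 1 < n)
    (U : Fin p → unitary (Alg M)) {ε : ℝ} (hε0 : 0 < ε) :
    ∃ (u : unitary (Alg M)) (X Y S B : Finset (Alg M)), Setup h f U u N D ε X Y S B := by
  classical
  have hndvd : ∀ k : ℤ, k ≠ 0 → k.natAbs ≤ N + D → ¬ (n : ℤ) ∣ k := fun k hk hkle hd => by
    have h1 := Nat.le_of_dvd (Int.natAbs_pos.2 hk) (Int.natCast_dvd.1 hd)
    omega
  -- the given elements and their products
  set L : Atom p N → Alg M := leftA U with hL
  set R : Atom p N → Alg M := rightA U with hR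
  set S : Finset (Alg M) := insert 1 (Finset.univ.image L ∪ Finset.univ.image R) with hS
  have hS1 : (1 : Alg M) ∈ S := Finset.mem_insert_self _ _
  have hSL : ∀ a, L a ∈ S := fun a =>
    Finset.mem_insert_of_mem (Finset.mem_union_left _ (Finset.mem_image_of_mem L (Finset.mem_univ a)))
  have hSR : ∀ a, R a ∈ S := fun a =>
    Finset.mem_insert_of_mem (Finset.mem_union_right _ (Finset.mem_image_of_mem R (Finset.mem_univ a)))
  have hSn : ∀ s ∈ S, ‖s‖ ≤ 1 := by
    intro s hs
    simp only [hS, hL, hR, leftA, rightA, Finset.mem_insert, Finset.mem_union, Finset.mem_image, Finset.mem_univ,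
      true_and] at hs
    rcases hs with rfl | ⟨a, rfl⟩ | ⟨a, rfl⟩
    · simpa using norm_coe_le_one (1 : unitary (Alg M))
    all_goals
      split_ifs
    · rw [norm_star]; exact norm_coe_le_one _
    · simpa using norm_coe_le_one (1 : unitary (Alg M))
    · simpa using norm_coe_le_one (1 : unitary (Alg M))
    · exact norm_coe_le_one _
  set B : Finset (Alg M) := (S ×ˢ S).image fun t => t.1 * t.2 with hB
  have hBm : ∀ r ∈ S, ∀ l ∈ S, r * l ∈ B := fun r hr l hl =>
    Finset.mem_image.2 ⟨(r, l), Finset.mem_product.2 ⟨hr, hl⟩, rfl⟩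
  have hBn : ∀ b ∈ B, ‖cE h b‖ ≤ 1 := fun b hb => by
    obtain ⟨t, ht, rfl⟩ := Finset.mem_image.1 hb
    obtain ⟨h1, h2⟩ := Finset.mem_product.1 ht
    exact (norm_cE_le h _).trans ((norm_mul_le _ _).trans
      (mul_le_one₀ (hSn _ h1) (norm_nonneg _) (hSn _ h2)))
  -- the two families of letters
  set T : Finset ℤ := (Finset.Icc (-((N + D : ℕ) : ℤ)) ((N + D : ℕ) : ℤ)).erase 0 with hT
  have hTm : ∀ k : ℤ, k ∈ T ↔ k ≠ 0 ∧ k.natAbs ≤ N + D := fun k => by
    rw [hT, Finset.mem_erase, Finset.mem_Icc]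
    omega
  set Y : Finset (Alg M) := T.image (haarPow f) with hY
  set X : Finset (Alg M) := (B.image fun b => b - cE h b) ∪ Y with hX
  have hY0 : ∀ y ∈ Y, (frame h).E y = 0 := fun y hy => by
    obtain ⟨k, hk, rfl⟩ := Finset.mem_image.1 hy
    exact cE_haarPow hf (by omega) (hndvd k ((hTm k).1 hk).1 ((hTm k).1 hk).2)
  have hX0 : ∀ x ∈ X, (frame h).E x = 0 := fun x hx => by
    rcases Finset.mem_union.1 hx with hx | hx
    · obtain ⟨b, -, rfl⟩ := Finset.mem_image.1 hx
      change cTrace h (b - cE h b) = 0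
      rw [map_sub, cTrace_apply, cTrace_apply, cE_of_central h (cE_central h b), sub_self]
    · exact hY0 x hx
  have hXb : ∀ b ∈ B, b - cE h b ∈ X := fun b hb =>
    Finset.mem_union_left _ (Finset.mem_image_of_mem _ hb)
  have hYk : ∀ k : ℤ, k ≠ 0 → k.natAbs ≤ N + D → haarPow f k ∈ Y := fun k h1 h2 =>
    Finset.mem_image_of_mem _ ((hTm k).2 ⟨h1, h2⟩)
  have hXk : ∀ k : ℤ, k ≠ 0 → k.natAbs ≤ N + D → haarPow f k ∈ X := fun k h1 h2 =>
    Finset.mem_union_right _ (hYk k h1 h2)
  -- the free conjugate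
  obtain ⟨u, hu⟩ := freeOut (frame_averaging h (exists_equalPartition h hna)) X Y hX0 hY0
    (4 * D + 8) ε hε0
  have hword : ∀ (W : List (Alg M ⊕ Alg M)) (z : Alg M), IsCentral z → W ≠ [] →
      W.length ≤ 4 * D + 8 → Alt W → (∀ a ∈ W, Sum.elim (· ∈ X) (· ∈ Y) a) →
      ‖tau h (z * val u W)‖ ≤ ‖z‖ * ε := fun W z hz hne hlen halt hmem =>
    (norm_tau_center_le _ hz).trans
      (mul_le_mul_of_nonneg_left (hu W hne hlen halt hmem) (norm_nonneg z))
  exact ⟨u, X, Y, S, B, hf, hε0.le, hS1, hSL, hSR, hBm, hBn, hXb, hXk, hYk, hword⟩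

/-- The value of a word. -/
theorem Setup.value {n p N D : ℕ} {f : Fin n → Alg M} {U : Fin p → unitary (Alg M)}
    {u : unitary (Alg M)} {ε : ℝ} {X Y S B : Finset (Alg M)} (st : Setup h f U u N D ε X Y S B)
    (a : Atom p N) (l : List (Atom p N)) (hll : l.length + 1 ≤ D)
    (hch : (a :: l).IsChain (fun a b => a.2 = b.2 → a.1.2 = b.1.2)) :
    ‖tau h ((a :: l).map (atomA f U u)).prod‖ ≤ 2 ^ (l.length + 2) * ε := by
  have hcl := List.isChain_cons.1 hch
  have hb : leftA U a ∈ B := by simpa using st.prod 1 st.one _ (st.left a)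
  set C := (l.map (atomA f U u)).prod with hC
  set Rst := sPow f u (cExp a.2) * (haarPow f (sgnA a) * (sPow f u (-cExp a.2) * (rightA U a * C))) with hRst
  have e : ((a :: l).map (atomA f U u)).prod
      = 1 * (1 * (leftA U a * Rst)) := by
    rw [List.map_cons, List.prod_cons, atomA, hRst, hC, one_mul, one_mul]
    simp only [mul_assoc]
  rw [e, tau_split]
  refine (norm_add_le _ _).trans ?_
  have hσ1 := sgnA_spec a
  have hhead : ∀ a' ∈ l.head?, a'.2 = a.2 → 0 < sgnA a * sgnA a' := by
    intro a' ha' he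
    have hf' := hcl.1 a' ha' he.symm
    have : sgnA a' = sgnA a := by simp only [sgnA, hf']
    rw [this]; exact hσ1.2.2
  have e1 : (1 : Alg M) * Rst
      = val u [Sum.inr (haarPow f (cExp a.2))] * haarPow f (sgnA a) * sPow f u (-cExp a.2) * (rightA U a * C) := by
    rw [hRst]; simp only [val, List.map_cons, List.map_nil, List.prod_cons, List.prod_nil,
      Sum.elim_inr, one_mul, mul_one, mul_assoc, sPow]
  have e2 : (1 : Alg M) * ((leftA U a - cE h (leftA U a)) * Rst)
      = val u [Sum.inl (leftA U a - cE h (leftA U a)), Sum.inr (haarPow f (cExp a.2))] * haarPow f (sgnA a) *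
        sPow f u (-cExp a.2) * (rightA U a * C) := by
    rw [hRst, val_pair]; simp only [one_mul, mul_assoc]
  rw [e1, e2]
  have hz1 : IsCentral (1 : Alg M) := fun b => by simp
  have hz' : IsCentral (1 * cE h (leftA U a)) := by rw [one_mul]; exact cE_central h _
  have b1 := st.walk l (rightA U a) (st.right a) [Sum.inr (haarPow f (cExp a.2))] a.2 (sgnA a) (1 * cE h (leftA U a)) hz'
    (ok_inr (st.powY _ (cExp_spec D a.2).1 (cExp_spec D a.2).2)) hσ1.1 (by omega) (by simp; omega) hcl.2 hhead
  have b2 := st.walk l (rightA U a) (st.right a) [Sum.inl (leftA U a - cE h (leftA U a)), Sum.inr (haarPow f (cExp a.2))] a.2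
    (sgnA a) 1 hz1 (by simpa using ok_nil.pair (st.centred _ hb) (st.powY _ (cExp_spec D a.2).1 (cExp_spec D a.2).2)) hσ1.1
    (by omega) (by simp; omega) hcl.2 hhead
  rw [one_mul] at b1
  simp only [one_mul] at b2 ⊢
  have hn1 : ‖(1 : Alg M)‖ ≤ 1 := by simpa using norm_coe_le_one (1 : unitary (Alg M))
  have hpos : (0 : ℝ) ≤ 2 ^ (l.length + 1) * ε := mul_nonneg (by positivity) st.eps
  calc _ ≤ 1 * (2 ^ (l.length + 1) * ε) + 1 * (2 ^ (l.length + 1) * ε) :=
        add_le_add (b1.trans (mul_le_mul_of_nonneg_right (st.cE_le _ hb) hpos))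
          (b2.trans (mul_le_mul_of_nonneg_right hn1 hpos))
    _ = 2 ^ (l.length + 2) * ε := by ring

/-- (G1) atoms free over the centre from the given unitaries. -/
theorem hasFree (h : P085.IsNormalTrace M ξ) (hna : P104.Sim.NoAbelian M) :
    (trOf h).HasFree := by
  intro p U N D δ hδ
  obtain ⟨f, hf⟩ := exists_equalPartition h hna (N + D + 1)
  set ε : ℝ := δ / 2 ^ (D + 2) with hε
  have hε0 : 0 < ε := by positivity
  obtain ⟨u, X, Y, S, B, st⟩ := exists_setup h hna (N := N) (D := D) hf Nat.lt_two_pow_self U hε0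
  -- the atoms
  set v : Fin N → unitary (Alg M) := fun j =>
    u * haarU hf (cExp j) * star u * haarU hf 1 * (u * haarU hf (-cExp j) * star u) with hv
  have hvc : ∀ j, (v j : Alg M) = sPow f u (cExp j) * haarPow f 1 * sPow f u (-cExp j) := fun _ => rfl
  have hatom : (fun a : Atom p N => (atom U v a : Alg M)) = atomA f U u := by
    funext a
    simp only [atom, atomA, leftA, rightA, sgnA]
    by_cases hb : a.1.2 = true
    · rw [if_pos hb, if_pos hb, if_pos hb, if_pos hb, Unitary.coe_star, Submonoid.coe_mul, star_mul,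
        hvc]
      simp only [sPow, star_mul, star_star, star_haarPow hf, neg_neg, mul_one, mul_assoc]
    · rw [if_neg hb, if_neg hb, if_neg hb, if_neg hb, Submonoid.coe_mul, hvc, one_mul]
  refine ⟨v, fun w hw hlen _ hred => ?_⟩
  -- the value as a product
  change ‖tau h _‖ ≤ δ
  rw [show ((pathProd (atom U v) w : unitary (Alg M)) : Alg M)
      = (w.reverse.map fun a => (atom U v a : Alg M)).prod by
    rw [pathProd, ← List.map_reverse, Submonoid.coe_list_prod, List.map_map]; rfl, hatom]
  obtain ⟨a, l, hal⟩ := List.exists_cons_of_ne_nil (List.reverse_ne_nil_iff.2 hw)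
  have hll : l.length + 1 ≤ D := by
    have := congrArg List.length hal
    simp at this; omega
  have hch : (a :: l).IsChain (fun a b => a.2 = b.2 → a.1.2 = b.1.2) := by
    rw [← hal, List.isChain_reverse]
    exact hred.imp fun x y hxy e => (hxy e.symm).symm
  rw [hal]
  refine (st.value a l hll hch).trans ?_
  calc (2 : ℝ) ^ (l.length + 2) * ε ≤ 2 ^ (D + 2) * ε := by gcongr <;> first | omega | norm_num
    _ = δ := by rw [hε]; field_simp

end Vale.Agent.P082
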