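import Vale.Agent.P082.Global.Spec

/-!
# Gluing over orthogonal central pieces

A maximal orthogonal family of central pieces on which the cochain is a coboundary has sum one, and
the solutions are added up strongly.
-/

noncomputable section

namespace Vale.Agent.P082

open Filter Topology
open P132.Homog.TypeIII
open Vale.Agent.P104.Patch (Alg)
open Vale.Agent.P104.Red (IsCentral Fam exists_maximal_fam)
open Vale.Agent.P085 (IsProj)
open Vale.Agent.P078.General (mem_vna_of_commute commute_of_mem_centralizer)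
open scoped InnerProductSpace

universe u

variable {H : Type u} [NormedAddCommGroup H] [InnerProductSpace ℂ H] [CompleteSpace H]
variable {M : VonNeumannAlgebra H} {ι : Type u} {z : ι → H →L[ℂ] H}

/-- Bounded elements on orthogonal central pieces add up strongly. -/
theorem exists_central_sum (hz : ∀ i, IsCentral M (z i)) (hf : Fam M z) (b : ι → H →L[ℂ] H)
    (hb : ∀ i, b i ∈ M) {R : ℝ} (hR : 0 ≤ R) (hbR : ∀ i, ‖b i‖ ≤ R) :
    ∃ B ∈ M, ‖B‖ ≤ R ∧ ∀ i, z i * B = z i * b i := by
  have hcomm : ∀ i x, z i (b i x) = b i (z i x) := fun i x =>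
    DFunLike.congr_fun ((hz i).comm _ (hb i)) x
  have hle : ∀ x i, ‖z i (b i x)‖ ^ 2 ≤ R ^ 2 * ‖z i x‖ ^ 2 := fun x i => by
    rw [hcomm, ← mul_pow]
    exact pow_le_pow_left₀ (norm_nonneg _) ((b i).le_of_opNorm_le (hbR i) _) 2
  have hsum : ∀ x, Summable fun i => z i (b i x) := fun x => by
    have h2 : Summable fun i => ‖z i (b i x)‖ ^ 2 :=
      Summable.of_nonneg_of_le (fun _ => sq_nonneg _) (hle x)
        ((hf.summable_norm_sq x).mul_left _)
    rw [summable_iff_vanishing_norm]
    intro ε hε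
    obtain ⟨s, hs⟩ := summable_iff_vanishing_norm.1 h2 (ε ^ 2) (by positivity)
    refine ⟨s, fun t ht => ?_⟩
    have h1 := hs t ht
    rw [Real.norm_of_nonneg (Finset.sum_nonneg fun _ _ => sq_nonneg _)] at h1
    rw [← hf.norm_sum_sq t fun i => b i x] at h1
    exact (sq_lt_sq₀ (norm_nonneg _) hε.le).1 h1
  let L : H →ₗ[ℂ] H :=
    { toFun := fun x => ∑' i, z i (b i x)
      map_add' := fun x y => by
        simp only [map_add]
        exact (hsum x).tsum_add (hsum y)
      map_smul' := fun c x => by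
        simp only [map_smul, RingHom.id_apply]
        exact (hsum x).tsum_const_smul c }
  have hL : ∀ x, ‖L x‖ ≤ R * ‖x‖ := fun x => by
    refine le_of_tendsto ((hsum x).hasSum.norm) (Eventually.of_forall fun s => ?_)
    refine (sq_le_sq₀ (norm_nonneg _) (by positivity)).1 ?_
    rw [hf.norm_sum_sq s fun i => b i x, mul_pow]
    refine (Finset.sum_le_sum fun i _ => hle x i).trans ?_
    rw [← Finset.mul_sum]
    exact mul_le_mul_of_nonneg_left (hf.sum_norm_sq_le s x) (sq_nonneg R)
  have hB : ∀ x, HasSum (fun i => z i (b i x)) (L.mkContinuous R hL x) := fun x =>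
    (hsum x).hasSum
  refine ⟨L.mkContinuous R hL, ?_, L.mkContinuous_norm_le hR hL, fun i => ?_⟩
  · refine mem_vna_of_commute fun y hy => ContinuousLinearMap.ext fun x => ?_
    refine ((hB x).mapL y).unique ?_
    have e : (fun i => y (z i (b i x))) = fun i => z i (b i (y x)) := funext fun i =>
      DFunLike.congr_fun (commute_of_mem_centralizer (mul_mem (hz i).proj.1 (hb i)) hy) x
    rw [e]
    exact hB (y x)
  · refine ContinuousLinearMap.ext fun x => ((hB x).mapL (z i)).unique ?_
    have hi : z i (z i (b i x)) = (z i * b i) x :=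
      DFunLike.congr_fun (P132.Homog.TypeIII.isProj_mul_self (hz i).proj) (b i x)
    rw [← hi]
    refine hasSum_single i fun j hj => ?_
    have h0 := hf.star_mul i j hj.symm
    rw [isProj_star (hz i).proj] at h0
    exact DFunLike.congr_fun h0 (b j x)

/-- Elements agreeing on pieces of sum one are equal. -/
theorem eq_of_forall_piece (hf : Fam M z) (h1 : hf.sum = 1) {B B' : H →L[ℂ] H}
    (h : ∀ i, z i * B = z i * B') : B = B' := by
  refine ContinuousLinearMap.ext fun x => ?_
  have h2 := hf.hasSum (B x)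
  have h3 := hf.hasSum (B' x)
  rw [h1] at h2 h3
  have e : (fun i => z i (B x)) = fun i => z i (B' x) := funext fun i => DFunLike.congr_fun (h i) x
  rw [e] at h2
  exact h2.unique h3

/-- (S) pieces glue. -/
theorem glue_norm (k : ℕ) (C : ℝ) (f : Cochain (Alg M) (k + 1))
    (hpieces : ∀ z₀ : Alg M, IsCentral M (z₀ : H →L[ℂ] H) → z₀ ≠ 0 →
      ∃ z : Alg M, IsCentral M (z : H →L[ℂ] H) ∧ z₀ * z = z ∧ z ≠ 0 ∧ Solv C f z) :
    ∃ g : Cochain (Alg M) k, ‖g‖ ≤ max C 0 * ‖f‖ ∧ ∀ a, f a = dHoch g a := by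
  have hzc : ∀ v : H →L[ℂ] H, IsCentral M v → PI M v := fun v hv => PI.of_proj hv.proj
  obtain ⟨S, hf, hS, hmax⟩ := exists_maximal_fam (M := M)
    (fun v => IsCentral M v ∧ ∃ w : Alg M, (w : H →L[ℂ] H) = v ∧ Solv C f w)
    (fun v hv => hzc v hv.1)
  have hcen : ∀ i : S, IsCentral M (i : H →L[ℂ] H) := fun i => (hS i i.2).1
  have hP : IsCentral M hf.sum := by
    refine ⟨⟨hf.sum_mem, ?_⟩, fun x hx => ContinuousLinearMap.ext fun v => ?_⟩
    · have e : star hf.sum * hf.sum = hf.sum := by
        rw [hf.star_mul_sum]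
        refine ContinuousLinearMap.ext fun v => (hf.initFam.hasSum v).unique ?_
        have e : (fun i : S => (star (i : H →L[ℂ] H) * (i : H →L[ℂ] H)) v)
            = fun i : S => (i : H →L[ℂ] H) v := funext fun i => by
          rw [isProj_star (hcen i).proj, P132.Homog.TypeIII.isProj_mul_self (hcen i).proj]
        rw [e]
        exact hf.hasSum v
      have h0 := hf.sum_pi.init
      rw [e] at h0
      exact h0.2
    · refine (hf.hasSum (x v)).unique ?_
      have e : (fun i : S => (i : H →L[ℂ] H) (x v)) = fun i : S => x ((i : H →L[ℂ] H) v) :=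
        funext fun i => DFunLike.congr_fun ((hcen i).comm x hx) v
      rw [e]
      exact (hf.hasSum v).mapL x
  have hz₀ : IsCentral M (1 - hf.sum) :=
    IsCentral.sub P104.Red.IsCentral.one hP (one_mul _)
  have hone : hf.sum = 1 := by
    by_contra hne
    have hmem : (1 - hf.sum) ∈ M := hz₀.proj.1
    obtain ⟨w, hwc, hwle, hw0, hws⟩ :=
      hpieces ⟨1 - hf.sum, hmem⟩ hz₀ fun h0 => hne
        (sub_eq_zero.1 (congrArg Subtype.val h0)).symm
    have hle : (1 - hf.sum) * (w : H →L[ℂ] H) = w := congrArg Subtype.val hwle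
    refine hw0 (Subtype.ext (hmax _ ⟨hwc, w, rfl, hws⟩ fun v hv => ?_))
    have hvs : v * hf.sum = v := by
      refine ContinuousLinearMap.ext fun x => ((hf.hasSum x).mapL v).unique ?_
      have hi : v (v x) = v x :=
        DFunLike.congr_fun (P132.Homog.TypeIII.isProj_mul_self (hS v hv).1.proj) x
      conv => arg 2; rw [← hi]
      refine hasSum_single (⟨v, hv⟩ : S) fun j hj => ?_
      have h0 := hf.star_mul ⟨v, hv⟩ j hj.symm
      rw [isProj_star (hS v hv).1.proj] at h0
      exact DFunLike.congr_fun h0 x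
    have h0 : v * (w : H →L[ℂ] H) = 0 := by
      rw [← hle, ← mul_assoc, mul_sub, mul_one, hvs, sub_self, zero_mul]
    constructor
    · rw [isProj_star (hS v hv).1.proj]; exact h0
    · rw [isProj_star hwc.proj]; exact h0
  have hex : ∀ i : S, ∃ g : Cochain (Alg M) k, ‖g‖ ≤ max C 0 * ‖f‖ ∧
      ∀ a, (i : H →L[ℂ] H) * (f a : H →L[ℂ] H) = (i : H →L[ℂ] H) * (dHoch g a : Alg M) :=
    fun i => by
      obtain ⟨w, hw, g, hg, hgd⟩ := (hS i i.2).2
      refine ⟨g, hg.trans (mul_le_mul_of_nonneg_right (le_max_left C 0) (norm_nonneg f)),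
        fun a => ?_⟩
      rw [← hw]
      exact congrArg Subtype.val (hgd a)
  choose g hgn hgd using hex
  have hR : 0 ≤ max C 0 * ‖f‖ := mul_nonneg (le_max_right C 0) (norm_nonneg f)
  have hsum : ∀ a : Fin k → Alg M, ∃ B : Alg M, ‖B‖ ≤ max C 0 * ‖f‖ * ∏ j, ‖a j‖ ∧
      ∀ i : S, (i : H →L[ℂ] H) * (B : H →L[ℂ] H) = (i : H →L[ℂ] H) * (g i a : Alg M) := by
    intro a
    obtain ⟨B, hB, hBn, hBz⟩ := exists_central_sum hcen hf (fun i => (g i a : Alg M))
      (fun i => (g i a).2) (mul_nonneg hR (Finset.prod_nonneg fun j _ => norm_nonneg (a j)))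
      fun i => ((g i).le_opNorm a).trans
        (mul_le_mul_of_nonneg_right (hgn i) (Finset.prod_nonneg fun j _ => norm_nonneg (a j)))
    exact ⟨⟨B, hB⟩, hBn, hBz⟩
  choose G hGn hG using hsum
  have huniq : ∀ {B B' : Alg M}, (∀ i : S, (i : H →L[ℂ] H) * (B : H →L[ℂ] H)
      = (i : H →L[ℂ] H) * (B' : H →L[ℂ] H)) → B = B' := fun h =>
    Subtype.ext (eq_of_forall_piece hf hone h)
  let Gl : MultilinearMap ℂ (fun _ : Fin k => Alg M) (Alg M) :=
    { toFun := G
      map_update_add' := fun m j x y => huniq fun i => by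
        rw [hG, (g i).map_update_add]
        simp only [AddMemClass.coe_add, mul_add, hG]
      map_update_smul' := fun m j c x => huniq fun i => by
        rw [hG, (g i).map_update_smul]
        simp only [SetLike.val_smul, mul_smul_comm, hG] }
  refine ⟨Gl.mkContinuous _ hGn, Gl.mkContinuous_norm_le hR hGn, fun a => huniq fun i => ?_⟩
  rw [hgd i a]
  have e : ∀ b : Fin k → Alg M, (i : H →L[ℂ] H) * (g i b : Alg M)
      = (i : H →L[ℂ] H) * ((Gl.mkContinuous _ hGn) b : Alg M) := fun b => (hG b i).symm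
  simp only [dHoch, dPi, id_eq, AddMemClass.coe_add, MulMemClass.coe_mul, AddSubmonoidClass.coe_finsetSum,
    AddSubgroupClass.coe_zsmul, mul_add, Finset.mul_sum, mul_smul_comm, e]
  congr 1
  · congr 1
    rw [← mul_assoc, ← mul_assoc, (hcen i).comm _ (a 0).2, mul_assoc, mul_assoc, e]
  · rw [← mul_assoc, ← mul_assoc, e]

/-- (S), as stated in `Global/Spec.lean`. -/
theorem glueOut : GlueOut M := fun k C f hpieces => by
  obtain ⟨g, -, hg⟩ := glue_norm k C f hpieces
  exact ⟨g, hg⟩

end Vale.Agent.P082
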