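import Vale.Agent.P082.F.Piece
import Vale.Agent.P082.F.Convert
import Vale.Agent.P082.F.Pull
import Vale.Agent.P082.F.Limit
import Vale.Agent.P082.CB.Main

/-!
# Two isometries of a central piece solve every cocycle there
-/

noncomputable section

namespace Vale.Agent.P082

open Vale.Agent.P104.Patch (Alg)

universe u

/-- (PI) two orthogonal isometries of a piece solve every cocycle there. -/
theorem halvOut {H : Type u} [NormedAddCommGroup H] [InnerProductSpace ℂ H] [CompleteSpace H]
    (M : VonNeumannAlgebra H) : HalvOut M := by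
  intro k
  obtain ⟨K, hK, h⟩ :=
    F.solve_piece F.pullGoal (F.halvable F.pullGoal F.limitGoal CB.cbVanish) k
  refine ⟨K, fun f hf z hz hh => ?_⟩
  obtain ⟨g, hg, hga⟩ := h H M (F.toCoch f) ‖f‖ (z : H →L[ℂ] H) (norm_nonneg f)
    (F.isCochain_toCoch f) (F.isCocycle_toCoch hf) hz hh
  refine ⟨F.ofCoch hg, F.norm_ofCoch_le hg (by positivity), fun a => Subtype.ext ?_⟩
  push_cast
  rw [F.coe_dHoch_ofCoch hg, ← F.toCoch_coe]
  exact hga _ fun i => (a i).2

end Vale.Agent.P082
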