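import Vale.Agent.P082.Global.Spec

/-!
# The local solution

For a unitary `X` of the piece the cocycle identity at `(j (E X), a)`, in the weak limit over the
cut-offs, says that `π f a` is the differential of `h_X = X⋆ Φ X` plus the defect
`X⋆ Φ (X u) - u X⋆ Φ X`. The averaging theorem makes the defect weakly small, so a weak limit of
averages of `h_X` solves the cocycle.
-/

noncomputable section

namespace Vale.Agent.P082

open scoped InnerProductSpace BigOperators Topology
open Filter

universe u v

variable {A : Type u} {V : Type v} [CStarAlgebra A] [NormedAddCommGroup V] [InnerProductSpace ℂ V]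

namespace Local

/-- The trace as a linear map. -/
def trL (T : Tr A V) : A →ₗ[ℂ] ℂ := (innerSL ℂ (T.e 1)).toLinearMap ∘ₗ T.e

theorem trL_apply (T : Tr A V) (a : A) : trL T a = T.tr a := rfl

theorem norm_tr_le (T : Tr A V) (a : A) : ‖T.tr a‖ ≤ ‖T.e a‖ := by
  refine (norm_inner_le_norm _ _).trans ?_
  rw [T.norm_one, one_mul]

theorem ext_tr (T : Tr A V) {b b' : A} (h : ∀ y, T.tr (y * b) = T.tr (y * b')) : b = b' := by
  refine sub_eq_zero.mp (T.faithful _ (inner_self_eq_zero (𝕜 := ℂ).mp ?_))
  rw [T.inner_eq, mul_sub, map_sub, inner_sub_right]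
  exact sub_eq_zero.mpr (h _)

/-- Weak limits of bounded families of multilinear maps. -/
theorem exists_wlim (T : Tr A V) (hL : T.WeakLim) {B : Type u} [NormedAddCommGroup B]
    [NormedSpace ℂ B] {k : ℕ} {ι : Type u} (l : Ultrafilter ι)
    (h : ι → ContinuousMultilinearMap ℂ (fun _ : Fin k => B) A) (C : ℝ) (hC : 0 ≤ C)
    (hh : ∀ i, ‖h i‖ ≤ C) :
    ∃ g : ContinuousMultilinearMap ℂ (fun _ : Fin k => B) A, ‖g‖ ≤ C ∧
      ∀ a y, Tendsto (fun i => T.tr (y * h i a)) (l : Filter ι) (𝓝 (T.tr (y * g a))) := by
  choose g hg hlim using fun a : Fin k → B => hL ι l (fun i => h i a) (C * ∏ m, ‖a m‖) fun i =>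
    ((h i).le_opNorm a).trans
      (mul_le_mul_of_nonneg_right (hh i) (Finset.prod_nonneg fun m _ => norm_nonneg _))
  refine ⟨(MultilinearMap.mk' g ?_ ?_).mkContinuous C hg,
    MultilinearMap.mkContinuous_norm_le _ hC _, hlim⟩
  · intro a m x y
    refine ext_tr T fun w => tendsto_nhds_unique (hlim _ w) ?_
    simpa [mul_add, ← trL_apply] using
      (hlim (Function.update a m x) w).add (hlim (Function.update a m y) w)
  · intro a m c x
    refine ext_tr T fun w => tendsto_nhds_unique (hlim _ w) ?_
    simpa [← trL_apply] using (hlim (Function.update a m x) w).const_mul c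

theorem contract_zero_cons {B : Type*} [Mul B] {k : ℕ} (x : B) (a : Fin (k + 1) → B) :
    contract 0 (Fin.cons x a : Fin (k + 2) → B) = Fin.cons (x * a 0) (fun i => a i.succ) := by
  funext i
  refine Fin.cases ?_ (fun m => ?_) i <;> simp [contract]

theorem contract_succ_cons {B : Type*} [Mul B] {k : ℕ} (x : B) (a : Fin (k + 1) → B) (p : Fin k) :
    contract p.succ (Fin.cons x a : Fin (k + 2) → B) = Fin.cons x (contract p a) := by
  funext i
  refine Fin.cases ?_ (fun m => ?_) i <;> simp [contract, Fin.succ_lt_succ_iff, Fin.castSucc_zero]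

theorem init_cons {B : Type*} {k : ℕ} (x : B) (a : Fin (k + 1) → B) :
    (fun i : Fin (k + 1) => (Fin.cons x a : Fin (k + 2) → B) i.castSucc)
      = Fin.cons x (fun i => a i.castSucc) := by
  funext i
  refine Fin.cases ?_ (fun m => ?_) i <;> simp

theorem tr_dPi (T : Tr A V) {B : Type u} [Mul B] {k : ℕ} (π : B → A) (g : (Fin k → B) → A)
    (a : Fin (k + 1) → B) (y : A) :
    T.tr (y * dPi π g a) = T.tr ((y * π (a 0)) * g (fun i => a i.succ))
      + (∑ p : Fin k, (-1 : ℤ) ^ ((p : ℕ) + 1) • T.tr (y * g (contract p a))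
        + (-1 : ℤ) ^ (k + 1) • T.tr ((π (a (Fin.last k)) * y) * g (fun i => a i.castSucc))) := by
  have hc : T.tr (y * (g (fun i => a i.castSucc) * π (a (Fin.last k))))
      = T.tr ((π (a (Fin.last k)) * y) * g (fun i => a i.castSucc)) := by
    have := T.comm (y * g (fun i => a i.castSucc)) (π (a (Fin.last k)))
    simp only [Tr.tr, mul_assoc] at this ⊢
    exact this
  rw [← hc]
  simp only [dPi, mul_add, Finset.mul_sum, mul_smul_comm, ← trL_apply, map_add, map_sum,
    map_zsmul, mul_assoc]
  abel

end Local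

open Local in
/-- The averaging theorem and the cut-offs solve every cocycle on a finite piece. -/
theorem localOut (T : Tr A V) (hL : T.WeakLim) (hN : T.NormalOut) (hM : T.MeanOut) :
    T.LocalOut := by
  classical
  intro B _ π j hπ hπ1 hπn hjn hπj hjm k f hf
  have : Nontrivial A := ⟨⟨1, 0, fun h => by simpa [h] using T.norm_one⟩⟩
  obtain ⟨ι, l, E, hE, hE1, hΦ⟩ := hN
  -- the cut-off cochains and their limits
  have hb : ∀ b i, ‖π.compContinuousMultilinearMap (f.curryLeft (j (E i * b)))‖ ≤ ‖f‖ * ‖b‖ := by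
    intro b i
    refine (ContinuousLinearMap.norm_compContinuousMultilinearMap_le _ _).trans ?_
    calc ‖π‖ * ‖f.curryLeft (j (E i * b))‖
        ≤ 1 * (‖f‖ * ‖b‖) := by
          refine mul_le_mul (π.opNorm_le_bound zero_le_one fun x => by simpa using hπn x) ?_
            (norm_nonneg (f.curryLeft (j (E i * b)))) zero_le_one
          refine (f.curryLeft.le_opNorm _).trans ?_
          rw [ContinuousMultilinearMap.curryLeft_norm]
          refine mul_le_mul_of_nonneg_left ((hjn _).trans ((norm_mul_le _ _).trans ?_))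
            (norm_nonneg f)
          exact mul_le_of_le_one_left (norm_nonneg b) (hE i)
      _ = ‖f‖ * ‖b‖ := one_mul _
  choose hl hln hlim using fun b => exists_wlim T hL l
    (fun i => π.compContinuousMultilinearMap (f.curryLeft (j (E i * b)))) (‖f‖ * ‖b‖)
    (by positivity) (hb b)
  choose Φ hΦc hΦlim using fun t : Fin k → B =>
    hΦ (π.comp ((ContinuousMultilinearMap.apply ℂ (fun _ : Fin k => B) B t).comp
      (f.curryLeft.comp j)))
  have hlΦ : ∀ b t, hl b t = Φ t b := fun b t =>
    ext_tr T fun y => tendsto_nhds_unique (hlim b t y) (hΦlim t b y)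
  -- the cocycle identity in the limit
  have heq : ∀ (b : A) (a : Fin (k + 1) → B) (y : A),
      T.tr (y * (b * π (f a))) - T.tr (y * hl (b * π (a 0)) (fun i => a i.succ))
        + ∑ p : Fin k, (-1 : ℤ) ^ (p : ℕ) • T.tr (y * hl b (contract p a))
        + (-1 : ℤ) ^ k • T.tr (y * (hl b (fun i => a i.castSucc) * π (a (Fin.last k)))) = 0 := by
    intro b a y
    have h1 : Tendsto (fun i => T.tr (y * (E i * b * π (f a)))) (l : Filter ι)
        (𝓝 (T.tr (y * (b * π (f a))))) := by
      rw [tendsto_iff_norm_sub_tendsto_zero]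
      refine squeeze_zero (fun i => norm_nonneg _) (fun i => ?_)
        (mul_zero ‖y‖ ▸ (zero_mul ‖b * π (f a)‖ ▸ hE1.mul_const ‖b * π (f a)‖).const_mul ‖y‖)
      rw [← trL_apply, ← trL_apply, ← map_sub, trL_apply, ← mul_sub, mul_assoc,
        ← sub_one_mul]
      exact (norm_tr_le T _).trans ((T.mul_le _ _).trans
        (mul_le_mul_of_nonneg_left (T.mul_le' _ _) (norm_nonneg y)))
    have h3 : Tendsto (fun i => T.tr (y * (π (f (Fin.cons (j (E i * b)) fun m => a m.castSucc))
        * π (a (Fin.last k))))) (l : Filter ι)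
        (𝓝 (T.tr (y * (hl b (fun m => a m.castSucc) * π (a (Fin.last k)))))) := by
      have e : ∀ c, T.tr (y * (c * π (a (Fin.last k)))) = T.tr (π (a (Fin.last k)) * y * c) := by
        intro c
        have := T.comm (y * c) (π (a (Fin.last k)))
        simp only [Tr.tr, mul_assoc] at this ⊢
        exact this
      simp only [e]
      exact hlim b _ _
    have hsum : Tendsto (fun i => T.tr (y * (E i * b * π (f a)))
        - T.tr (y * π (f (Fin.cons (j (E i * (b * π (a 0)))) fun m => a m.succ)))
        + ∑ p : Fin k, (-1 : ℤ) ^ (p : ℕ) • T.tr (y * π (f (Fin.cons (j (E i * b)) (contract p a))))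
        + (-1 : ℤ) ^ k • T.tr (y * (π (f (Fin.cons (j (E i * b)) fun m => a m.castSucc))
            * π (a (Fin.last k))))) (l : Filter ι)
        (𝓝 (T.tr (y * (b * π (f a))) - T.tr (y * hl (b * π (a 0)) (fun i => a i.succ))
          + ∑ p : Fin k, (-1 : ℤ) ^ (p : ℕ) • T.tr (y * hl b (contract p a))
          + (-1 : ℤ) ^ k • T.tr (y * (hl b (fun i => a i.castSucc) * π (a (Fin.last k)))))) :=
      ((h1.sub (hlim _ _ y)).add (tendsto_finsetSum _ fun p _ => (hlim b _ y).const_smul _)).add
        (h3.const_smul _)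
    refine tendsto_nhds_unique hsum (tendsto_const_nhds.congr fun i => ?_)
    have hc := congr_arg (fun x => T.tr (y * π x)) (hf (Fin.cons (j (E i * b)) a))
    simp only [dHoch, dPi, id, Fin.sum_univ_succ, contract_zero_cons, contract_succ_cons,
      init_cons, Fin.cons_succ, Fin.cons_zero, Fin.val_zero, Fin.val_succ, hjm, map_zero,
      mul_zero] at hc
    have hz : T.tr (0 : A) = 0 := map_zero (trL T)
    rw [hz] at hc
    rw [← hc]
    simp only [map_add, map_neg, map_sum, map_zsmul, hπ, hπj, mul_add, Finset.mul_sum, mul_smul_comm,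
      ← trL_apply, pow_succ, mul_neg, mul_one, neg_smul, neg_neg, ← mul_assoc, pow_zero,
      one_smul]
    rw [show (Fin.cons (j (E i * b)) a : Fin (k + 2) → B) (Fin.last (k + 1)) = a (Fin.last k) by
      rw [← Fin.succ_last, Fin.cons_succ]]
    abel
  -- the averages
  have hmean := fun (i : Finset (unitary A) × Finset ((Fin k → B) × A) × ℕ) =>
    hM i.1.card (fun m => (i.1.equivFin.symm m : unitary A)) i.2.1.card
      (fun m => Φ (i.2.1.equivFin.symm m : (Fin k → B) × A).1)
      (fun m => (i.2.1.equivFin.symm m : (Fin k → B) × A).2)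
      (fun m => hΦc _) ((i.2.2 : ℝ) + 1)⁻¹ (by positivity)
  choose J X hJ hX using hmean
  let hU : unitary A → ContinuousMultilinearMap ℂ (fun _ : Fin k => B) A := fun x =>
    (ContinuousLinearMap.mul ℂ A (star (x : A))).compContinuousMultilinearMap (hl (x : A))
  have hUn : ∀ x, ‖hU x‖ ≤ ‖f‖ := by
    intro x
    refine (ContinuousLinearMap.norm_compContinuousMultilinearMap_le _ _).trans ?_
    refine (mul_le_mul (ContinuousLinearMap.opNorm_mul_apply_le ℂ A _) (hln _)
      (norm_nonneg (hl (x : A))) (norm_nonneg _)).trans_eq ?_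
    rw [norm_star, CStarRing.norm_coe_unitary]
    ring
  have hav : ∀ i, ‖((J i : ℂ)⁻¹) • ∑ m, hU (X i m)‖ ≤ ‖f‖ := by
    intro i
    rw [norm_smul, norm_inv, Complex.norm_natCast, inv_mul_le_iff₀ (Nat.cast_pos.mpr (hJ i))]
    refine (norm_sum_le_of_le _ fun m _ => hUn _).trans_eq ?_
    simp
  let L : Ultrafilter (Finset (unitary A) × Finset ((Fin k → B) × A) × ℕ) := Ultrafilter.of atTop
  obtain ⟨h, hn, hhlim⟩ := exists_wlim T hL L
    (fun i => ((J i : ℂ)⁻¹) • ∑ m, hU (X i m)) ‖f‖ (norm_nonneg f) hav
  refine ⟨h, hn.trans (le_mul_of_one_le_left (norm_nonneg f) ?_), fun a => ?_⟩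
  · linarith [(k.cast_nonneg : (0 : ℝ) ≤ k)]
  refine ext_tr T fun y => ?_
  generalize ht : (fun m : Fin k => a m.succ) = t at *
  -- the defect tends to zero
  let Λ : (Finset (unitary A) × Finset ((Fin k → B) × A) × ℕ) → A → ℂ := fun i u =>
    (J i : ℂ)⁻¹ * ∑ m, T.tr (y * (star (X i m : A) * Φ t ((X i m : A) * u)
      - u * (star (X i m : A) * Φ t (X i m : A))))
  have hΛ : ∀ u, Tendsto (fun i => Λ i u) (L : Filter _) (𝓝 0) := by
    intro u
    have hu : u ∈ Submodule.span ℂ (unitary A : Set A) := by
      rw [CStarAlgebra.span_unitary]; exact Submodule.mem_top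
    induction hu using Submodule.span_induction with
    | mem u hu =>
      rw [tendsto_zero_iff_norm_tendsto_zero]
      have h0 : Tendsto (fun i : Finset (unitary A) × Finset ((Fin k → B) × A) × ℕ =>
          ((i.2.2 : ℝ) + 1)⁻¹) (L : Filter _) (𝓝 0) := by
        refine ((tendsto_one_div_add_atTop_nhds_zero_nat.congr fun n => one_div _).comp ?_).mono_left
          (Ultrafilter.of_le _)
        rw [← prod_atTop_atTop_eq, ← prod_atTop_atTop_eq]
        exact tendsto_snd.comp tendsto_snd
      refine squeeze_zero' (Eventually.of_forall fun i => norm_nonneg _) ?_ h0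
      filter_upwards [Ultrafilter.of_le atTop (eventually_ge_atTop
        (({⟨u, hu⟩} : Finset (unitary A)), ({(t, y * u)} : Finset ((Fin k → B) × A)), 0))]
        with i hi
      obtain ⟨hi1, hi2, -⟩ := hi
      have hi' := hX i (i.2.1.equivFin ⟨(t, y * u), hi2 (Finset.mem_singleton_self _)⟩)
        (i.1.equivFin ⟨⟨u, hu⟩, hi1 (Finset.mem_singleton_self _)⟩)
      simp only [Equiv.symm_apply_apply, Fintype.expect_eq_sum_div_card, Fintype.card_fin]
        at hi'
      refine le_trans (le_of_eq ?_) hi'
      congr 1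
      simp only [Λ]
      rw [← sub_div, ← Finset.sum_sub_distrib, div_eq_inv_mul]
      congr 1
      refine Finset.sum_congr rfl fun m _ => ?_
      simp only [Tr.phiU, Tr.phi2, Submonoid.coe_mul, star_mul, ← trL_apply, ← map_sub]
      congr 1
      rw [mul_sub, ← mul_assoc (y * u), mul_assoc y u (star u), Unitary.mul_star_self_of_mem hu,
        mul_one, ← mul_assoc y u, mul_assoc y (star _), mul_assoc (y * u) (star _)]
    | zero =>
      refine tendsto_const_nhds.congr fun i => ?_
      simp [Λ, ← trL_apply]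
    | add u v _ _ hu hv =>
      refine (add_zero (0 : ℂ) ▸ hu.add hv).congr fun i => ?_
      simp only [Λ, ← mul_add, ← Finset.sum_add_distrib, ← trL_apply, ← map_add]
      congr 1
      refine Finset.sum_congr rfl fun m _ => ?_
      congr 1
      simp only [map_add, add_mul, mul_add]
      rw [← mul_add]; congr 1
      abel
    | smul c u _ hu =>
      refine (mul_zero c ▸ hu.const_mul c).congr fun i => ?_
      simp only [Λ, Finset.mul_sum]
      refine Finset.sum_congr rfl fun m _ => ?_
      simp only [mul_smul_comm, smul_mul_assoc, map_smul, ← smul_sub, ← trL_apply, smul_eq_mul]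
      ring
  have key : ∀ i, T.tr (y * π (f a)) - Λ i (π (a 0))
      = T.tr (y * dPi π ⇑(((J i : ℂ)⁻¹) • ∑ m, hU (X i m)) a) := by
    intro i
    have hone : ∀ x : unitary A, T.tr (y * π (f a))
        - T.tr (y * (star (x : A) * Φ t ((x : A) * π (a 0))
          - π (a 0) * (star (x : A) * Φ t (x : A)))) = T.tr (y * dPi π ⇑(hU x) a) := by
      intro x
      have e := heq (x : A) a (y * star (x : A))
      rw [ht] at e
      rw [mul_assoc y (star (x : A)), ← mul_assoc (star (x : A)) (x : A),
        Unitary.coe_star_mul_self, one_mul] at e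
      rw [tr_dPi, ← hlΦ, ← hlΦ]
      simp only [hU, ContinuousLinearMap.compContinuousMultilinearMap_coe, Function.comp_apply,
        ContinuousLinearMap.mul_apply', ht]
      have hc : T.tr (π (a (Fin.last k)) * y * (star (x : A) * hl (x : A) fun i => a i.castSucc))
          = T.tr (y * star (x : A) * ((hl (x : A) fun i => a i.castSucc) * π (a (Fin.last k)))) := by
        have := T.comm (π (a (Fin.last k)))
          (y * star (x : A) * (hl (x : A) fun i => a i.castSucc))
        simp only [Tr.tr, mul_assoc] at this ⊢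
        exact this
      rw [hc]
      simp only [mul_sub, ← mul_assoc, ← trL_apply, map_sub, pow_succ, mul_neg, mul_one, neg_smul,
        Finset.sum_neg_distrib] at e ⊢
      linear_combination e
    simp only [tr_dPi] at hone ⊢
    simp only [FunLike.coe_smul, sum_apply, Pi.smul_apply,
      mul_smul_comm, Finset.mul_sum, ← trL_apply, map_smul, map_sum, smul_eq_mul, Λ] at hone ⊢
    have hcast : (J i : ℂ) ≠ 0 := Nat.cast_ne_zero.mpr (hJ i).ne'
    calc trL T (y * π (f a)) - _ = ∑ m, (J i : ℂ)⁻¹ * (trL T (y * π (f a))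
          - trL T (y * (star (X i m : A) * Φ t ((X i m : A) * π (a 0))
            - π (a 0) * (star (X i m : A) * Φ t (X i m : A))))) := by
          simp only [mul_sub, Finset.sum_sub_distrib, Finset.sum_const, Finset.card_univ,
            Fintype.card_fin, nsmul_eq_mul, ← mul_assoc, mul_inv_cancel₀ hcast, one_mul]
      _ = _ := by
          simp only [hone, mul_add, Finset.sum_add_distrib, Finset.mul_sum, zsmul_eq_mul]
          rw [Finset.sum_comm]
          congr 1
          congr 1
          · refine Finset.sum_congr rfl fun p _ => Finset.sum_congr rfl fun m _ => ?_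
            ring
          · refine Finset.sum_congr rfl fun m _ => ?_
            ring
  have hR : Tendsto (fun i => T.tr (y * dPi π ⇑(((J i : ℂ)⁻¹) • ∑ m, hU (X i m)) a))
      (L : Filter _) (𝓝 (T.tr (y * dPi π ⇑h a))) := by
    simp only [tr_dPi]
    exact (hhlim _ _).add
      ((tendsto_finsetSum _ fun p _ => (hhlim _ _).const_smul _).add ((hhlim _ _).const_smul _))
  refine tendsto_nhds_unique ?_ hR
  refine Tendsto.congr key ?_
  simpa using (tendsto_const_nhds (x := T.tr (y * π (f a)))).sub (hΛ (π (a 0)))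

end Vale.Agent.P082
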