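import Vale.Agent.P082.Core.Spec
import Vale.Agent.P104.Groth

/-!
# Cut-offs that extract the normal part of every bounded map

For a positive functional `χ` with cyclic vector `o`, `o = η + v`: `η` is a limit of vectors `u`
with `y ↦ ⟪u, π y o⟫` bounded for the trace norm, `v` is a limit of `π y o` with trace norm of `y`
tending to zero. On `η` the representation is trace-norm continuous, and `v` is killed by cut-offs
`E → 1`. With the little Grothendieck inequality this makes `b ↦ lim F (E b)` trace-norm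
continuous.
-/

noncomputable section

namespace Vale.Agent.P082

open scoped InnerProductSpace ComplexOrder Topology
open Filter Vale.Agent.P104

universe u v

variable {A : Type u} {V : Type v} [CStarAlgebra A] [NormedAddCommGroup V] [InnerProductSpace ℂ V]

attribute [local instance] CStarAlgebra.spectralOrder CStarAlgebra.spectralOrderedRing

namespace Normal

/-! ## The trace vectors -/

variable (T : Tr A V)

theorem norm_e_le (a : A) : ‖T.e a‖ ≤ ‖a‖ := by
  simpa [T.norm_one] using T.mul_le a 1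

theorem norm_e_sq (a : A) : ((‖T.e a‖ ^ 2 : ℝ) : ℂ) = T.tr (star a * a) := by
  rw [Tr.tr, ← T.inner_eq, inner_self_eq_norm_sq_to_K]
  push_cast
  rfl

theorem norm_e_star (a : A) : ‖T.e (star a)‖ = ‖T.e a‖ := by
  refine (sq_eq_sq₀ (norm_nonneg _) (norm_nonneg _)).1 (Complex.ofReal_inj.1 ?_)
  rw [norm_e_sq, norm_e_sq, star_star, Tr.tr, Tr.tr, T.comm]

/-- The map `e ∘ F`. -/
def eComp (F : A →L[ℂ] A) : A →L[ℂ] V :=
  (T.e.mkContinuous 1 fun a => by rw [one_mul]; exact norm_e_le T a).comp F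

theorem eComp_apply (F : A →L[ℂ] A) (a : A) : eComp T F a = T.e (F a) := rfl

/-! ## A positive functional dominating a map -/

theorem exists_sqrt {a : A} (ha : 0 ≤ a) : ∃ c : A, IsSelfAdjoint c ∧ c * c = a :=
  ⟨CFC.sqrt a, IsSelfAdjoint.of_nonneg (CFC.sqrt_nonneg a), CFC.sqrt_mul_sqrt_self a ha⟩

theorem conj_nonneg {a : A} (ha : 0 ≤ a) (w : A) : 0 ≤ star w * a * w := by
  obtain ⟨c, hc, rfl⟩ := exists_sqrt ha
  have : star w * (c * c) * w = star (c * w) * (c * w) := by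
    rw [star_mul, hc.star_eq]; simp only [mul_assoc]
  rw [this]
  exact star_mul_self_nonneg _

/-- Twice the hermitian functional with the real part of `L`, as a positive linear map. -/
theorem exists_pos_of_re {L : A → ℂ} (hadd : ∀ a b, L (a + b) = L a + L b)
    (hsmul : ∀ (r : ℂ) a, L (r • a) = r * L a) (hpos : ∀ a, 0 ≤ a → 0 ≤ (L a).re) :
    ∃ χ : A →ₚ[ℂ] ℂ, ∀ a, IsSelfAdjoint a → (χ a).re = 2 * (L a).re := by
  let l : A →ₗ[ℂ] ℂ :=
    { toFun := fun a => L a + starRingEnd ℂ (L (star a))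
      map_add' := fun a b => by rw [star_add, hadd, hadd, map_add]; ring
      map_smul' := fun r a => by
        rw [star_smul, hsmul, hsmul, map_mul, RingHom.id_apply, smul_eq_mul, RCLike.star_def,
          Complex.conj_conj]
        ring }
  have hl : ∀ a : A, IsSelfAdjoint a → l a = ((2 * (L a).re : ℝ) : ℂ) := fun a ha => by
    show L a + starRingEnd ℂ (L (star a)) = _
    rw [ha.star_eq, Complex.add_conj]
  refine ⟨PositiveLinearMap.mk₀ l fun a ha => ?_, fun a ha => ?_⟩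
  · rw [hl a (IsSelfAdjoint.of_nonneg ha), Complex.zero_le_real]
    have := hpos a ha
    positivity
  · show (l a).re = _
    rw [hl a ha, Complex.ofReal_re]

/-- Little Grothendieck inequality, as domination by one positive functional. -/
theorem exists_dominating {K : Type v} [NormedAddCommGroup K] [InnerProductSpace ℂ K]
    (G : A →L[ℂ] K) :
    ∃ χ : A →ₚ[ℂ] ℂ, ∀ x : A, ‖G x‖ ^ 2 ≤ (χ (star x * x)).re + (χ (x * star x)).re := by
  have hgood : ∀ n : ℕ, ∃ γ, (∀ w ∈ unitary A, ‖G w‖ ≤ γ) ∧ ∃ u ∈ unitary A,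
      γ ^ 2 - ‖G u‖ ^ 2 ≤ (1 / ((n : ℝ) + 1)) ^ 3 := fun n =>
    Groth.exists_good G (by positivity)
  choose γ hγ w hw hgap using hgood
  let U : Ultrafilter ℕ := Ultrafilter.of atTop
  have hU : (U : Filter ℕ) ≤ atTop := Ultrafilter.of_le atTop
  let t : ℕ → ℝ := fun n => 1 / ((n : ℝ) + 1)
  have ht : ∀ n, 0 < t n := fun n => by positivity
  have ht0 : Tendsto t atTop (𝓝 0) := tendsto_one_div_add_atTop_nhds_zero_nat
  have herr : ∀ B, Tendsto (fun n => Groth.err G (γ n) (t n) B (w n)) atTop (𝓝 0) := by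
    intro B
    have hup : Tendsto (fun n => t n + 2 * ‖G‖ ^ 2 * t n ^ 2 * B ^ 4) atTop (𝓝 0) := by
      simpa using ht0.add (((ht0.pow 2).const_mul (2 * ‖G‖ ^ 2)).mul_const (B ^ 4))
    refine squeeze_zero (fun n => ?_) (fun n => ?_) hup
    · have h1 : ‖G (w n)‖ ^ 2 ≤ γ n ^ 2 :=
        pow_le_pow_left₀ (norm_nonneg _) (hγ n _ (hw n)) 2
      rw [Groth.err]
      exact add_nonneg (div_nonneg (by linarith) (sq_nonneg _)) (by positivity)
    · rw [Groth.err, add_le_add_iff_right, div_le_iff₀ (pow_pos (ht n) 2)]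
      calc _ ≤ t n ^ 3 := hgap n
        _ = _ := by ring
  have hlim : ∀ g : ℕ → ℂ, (∃ R, ∀ n, ‖g n‖ ≤ R) → ∃ z, Tendsto g U (𝓝 z) := by
    rintro g ⟨R, hR⟩
    have hm : ∀ᶠ n in (U : Filter ℕ), g n ∈ Metric.closedBall (0 : ℂ) R :=
      Filter.Eventually.of_forall fun n => mem_closedBall_zero_iff.2 (hR n)
    obtain ⟨z, -, hz⟩ := (isCompact_closedBall (0 : ℂ) R).ultrafilter_le_nhds (U.map g)
      (le_principal_iff.2 hm)
    exact ⟨z, hz⟩
  choose L₁ hL₁ using fun a => hlim (fun n => Groth.phi G (w n) a)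
    ⟨_, fun n => Groth.norm_phi_le G (hw n) a⟩
  choose L₂ hL₂ using fun a => hlim (fun n => Groth.phi G (w n) (star (w n) * a * w n))
    ⟨‖G‖ ^ 2 * ‖a‖, fun n => (Groth.norm_phi_le G (hw n) _).trans (by
      gcongr
      refine (norm_mul_le _ _).trans ((mul_le_of_le_one_right (norm_nonneg _)
        (Groth.norm_unitary_le (hw n))).trans ((norm_mul_le _ _).trans
          (mul_le_of_le_one_left (norm_nonneg _) ?_)))
      rw [norm_star]
      exact Groth.norm_unitary_le (hw n))⟩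
  have hpos : ∀ (a : ℕ → A) (z : ℂ) (B : ℝ), (∀ n, 0 ≤ a n) → (∀ n, ‖a n‖ ≤ B ^ 2) → 0 ≤ B →
      Tendsto (fun n => Groth.phi G (w n) (a n)) U (𝓝 z) → 0 ≤ z.re := by
    intro a z B ha hB hB0 hz
    have hre := (Complex.continuous_re.tendsto z).comp hz
    have h0 : Tendsto (fun n => (Groth.phi G (w n) (a n)).re + Groth.err G (γ n) (t n) B (w n)) U
        (𝓝 z.re) := by simpa using hre.add ((herr B).mono_left hU)
    have htB : ∀ᶠ n in atTop, t n * B ≤ 1 := by
      have : Tendsto (fun n => t n * B) atTop (𝓝 0) := by simpa using ht0.mul_const B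
      exact this.eventually (eventually_le_nhds zero_lt_one)
    refine ge_of_tendsto h0 ((htB.filter_mono hU).mono fun n hn => ?_)
    obtain ⟨c, hc, hcc⟩ := exists_sqrt (ha n)
    have hnc : ‖c‖ ≤ B := by
      have : ‖c‖ * ‖c‖ ≤ B * B := by
        rw [← CStarRing.norm_star_mul_self (x := c), hc.star_eq, hcc, ← sq]
        exact hB n
      exact nonneg_le_nonneg_of_sq_le_sq hB0 this
    have := Groth.selfAdjoint_step G (hγ n) (hw n) hc (ht n) hnc hn
    rw [hcc] at this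
    nlinarith [sq_nonneg ‖G (w n * c)‖]
  have h1 : ∀ a, 0 ≤ a → 0 ≤ (L₁ a).re := fun a ha =>
    hpos (fun _ => a) _ (Real.sqrt ‖a‖) (fun _ => ha)
      (fun _ => (Real.sq_sqrt (norm_nonneg a)).ge) (Real.sqrt_nonneg _) (hL₁ a)
  have h2 : ∀ a, 0 ≤ a → 0 ≤ (L₂ a).re := fun a ha =>
    hpos (fun n => star (w n) * a * w n) _ (Real.sqrt ‖a‖) (fun n => conj_nonneg ha _)
      (fun n => by
        rw [Real.sq_sqrt (norm_nonneg a)]
        refine (norm_mul_le _ _).trans ((mul_le_of_le_one_right (norm_nonneg _)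
          (Groth.norm_unitary_le (hw n))).trans ((norm_mul_le _ _).trans
            (mul_le_of_le_one_left (norm_nonneg _) ?_)))
        rw [norm_star]
        exact Groth.norm_unitary_le (hw n)) (Real.sqrt_nonneg _) (hL₂ a)
  have hadd : ∀ a b, L₁ (a + b) + L₂ (a + b) = L₁ a + L₂ a + (L₁ b + L₂ b) := fun a b => by
    rw [tendsto_nhds_unique (hL₁ (a + b))
        (((hL₁ a).add (hL₁ b)).congr fun n => (Groth.phi_add G _ a b).symm),
      tendsto_nhds_unique (hL₂ (a + b))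
        (((hL₂ a).add (hL₂ b)).congr fun n => by
          rw [mul_add, add_mul, Groth.phi_add])]
    ring
  have hsmul : ∀ (r : ℂ) a, L₁ (r • a) + L₂ (r • a) = r * (L₁ a + L₂ a) := fun r a => by
    rw [tendsto_nhds_unique (hL₁ (r • a))
        (((hL₁ a).const_mul r).congr fun n => (Groth.phi_smul G _ r a).symm),
      tendsto_nhds_unique (hL₂ (r • a))
        (((hL₂ a).const_mul r).congr fun n => by
          rw [mul_smul_comm, smul_mul_assoc, Groth.phi_smul])]
    ring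
  obtain ⟨χ, hχ⟩ := exists_pos_of_re hadd hsmul fun a ha => by
    rw [Complex.add_re]; exact add_nonneg (h1 a ha) (h2 a ha)
  refine ⟨χ, fun x => ?_⟩
  have hb : ‖G x‖ ^ 2 ≤ (L₁ (star x * x)).re + (L₂ (x * star x)).re := by
    have he : Tendsto (fun n => (Groth.phi G (w n) (star x * x)).re
        + (Groth.phi G (w n) (star (w n) * (x * star x) * w n)).re
        + 4 * Groth.err G (γ n) (t n) ‖x‖ (w n)) U
        (𝓝 ((L₁ (star x * x)).re + (L₂ (x * star x)).re)) := by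
      simpa using (((Complex.continuous_re.tendsto _).comp (hL₁ (star x * x))).add
        ((Complex.continuous_re.tendsto _).comp (hL₂ (x * star x)))).add
        (((herr ‖x‖).mono_left hU).const_mul 4)
    have htB : ∀ᶠ n in atTop, t n * ‖x‖ ≤ 1 := by
      have : Tendsto (fun n => t n * ‖x‖) atTop (𝓝 0) := by simpa using ht0.mul_const ‖x‖
      exact this.eventually (eventually_le_nhds zero_lt_one)
    exact ge_of_tendsto he ((htB.filter_mono hU).mono fun n hn =>
      Groth.step G (hγ n) (hw n) x (ht n) le_rfl hn)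
  have hx := star_mul_self_nonneg x
  have hx' := mul_star_self_nonneg x
  rw [hχ _ (IsSelfAdjoint.of_nonneg hx), hχ _ (IsSelfAdjoint.of_nonneg hx'), Complex.add_re,
    Complex.add_re]
  have := h1 _ hx; have := h1 _ hx'; have := h2 _ hx; have := h2 _ hx'
  linarith [sq_nonneg ‖G x‖]

/-! ## The two parts of the cyclic vector -/

variable (χ : A →ₚ[ℂ] ℂ)

/-- The vectors `y ↦ π y o`. -/
def jv : A →ₗ[ℂ] χ.GNS where
  toFun y := ((χ.toPreGNS y : χ.PreGNS) : χ.GNS)
  map_add' a b := by rw [map_add, UniformSpace.Completion.coe_add]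
  map_smul' r a := by rw [map_smul, UniformSpace.Completion.coe_smul, RingHom.id_apply]

theorem norm_jv_sq (y : A) : ‖jv χ y‖ ^ 2 = (χ (star y * y)).re := by
  show ‖((χ.toPreGNS y : χ.PreGNS) : χ.GNS)‖ ^ 2 = _
  rw [UniformSpace.Completion.norm_coe]
  have := χ.preGNS_norm_sq (χ.toPreGNS y)
  rw [PositiveLinearMap.ofPreGNS_toPreGNS] at this
  exact_mod_cast congrArg Complex.re this

theorem pi_jv (b y : A) : χ.gnsNonUnitalStarAlgHom b (jv χ y) = jv χ (b * y) := by
  show χ.gnsNonUnitalStarAlgHom b ((χ.toPreGNS y : χ.PreGNS) : χ.GNS) = _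
  rw [PositiveLinearMap.gnsNonUnitalStarAlgHom_apply_coe,
    PositiveLinearMap.leftMulMapPreGNS_apply, PositiveLinearMap.ofPreGNS_toPreGNS]
  rfl

theorem norm_pi_le (b : A) (v : χ.GNS) : ‖χ.gnsNonUnitalStarAlgHom b v‖ ≤ ‖b‖ * ‖v‖ :=
  (ContinuousLinearMap.le_opNorm _ _).trans
    (mul_le_mul_of_nonneg_right (NonUnitalStarAlgHom.norm_apply_le _ b) (norm_nonneg _))

/-- Vectors near which `y ↦ π y o` is not trace-norm continuous. -/
def Sing (v : χ.GNS) : Prop :=
  ∀ ε : ℝ, 0 < ε → ∃ y : A, ‖T.e y‖ < ε ∧ ‖jv χ y - v‖ < ε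

theorem sing_pi {v : χ.GNS} (hv : Sing T χ v) (b : A) :
    Sing T χ (χ.gnsNonUnitalStarAlgHom b v) := by
  intro ε hε
  obtain ⟨y, h1, h2⟩ := hv (ε / (‖b‖ + 1)) (by positivity)
  have key : ∀ r : ℝ, 0 ≤ r → r < ε / (‖b‖ + 1) → ‖b‖ * r < ε := fun r hr hlt => by
    rw [lt_div_iff₀ (by positivity)] at hlt
    nlinarith
  refine ⟨b * y, (T.mul_le b y).trans_lt (key _ (norm_nonneg _) h1), ?_⟩
  rw [← pi_jv, ← map_sub]
  exact (norm_pi_le χ b _).trans_lt (key _ (norm_nonneg _) h2)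

/-- The trace-norm bounded vectors. -/
def domSub : Submodule ℂ χ.GNS where
  carrier := {u | ∃ C : ℝ, ∀ y, ‖⟪u, jv χ y⟫_ℂ‖ ≤ C * ‖T.e y‖}
  add_mem' := by
    rintro a b ⟨C, hC⟩ ⟨D, hD⟩
    refine ⟨C + D, fun y => ?_⟩
    rw [inner_add_left, add_mul]
    exact (norm_add_le _ _).trans (add_le_add (hC y) (hD y))
  zero_mem' := ⟨0, fun y => by simp⟩
  smul_mem' := by
    rintro r a ⟨C, hC⟩
    refine ⟨‖r‖ * C, fun y => ?_⟩
    rw [inner_smul_left, norm_mul, Complex.norm_conj, mul_assoc]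
    exact mul_le_mul_of_nonneg_left (hC y) (norm_nonneg _)

theorem sing_of_orthogonal {v : χ.GNS} (hv : v ∈ (domSub T χ)ᗮ) : Sing T χ v := by
  let ι : A →ₗ[ℂ] WithLp 2 (UniformSpace.Completion V × χ.GNS) :=
    (WithLp.linearEquiv 2 ℂ (UniformSpace.Completion V × χ.GNS)).symm.toLinearMap ∘ₗ
      LinearMap.prod ((UniformSpace.Completion.toComplL (𝕜 := ℂ) (E := V)).toLinearMap ∘ₗ T.e)
        (jv χ)
  let w : WithLp 2 (UniformSpace.Completion V × χ.GNS) := WithLp.toLp 2 (0, v)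
  have hperp : w ∈ (LinearMap.range ι)ᗮᗮ := by
    rw [Submodule.mem_orthogonal]
    intro g hg
    have hD : g.snd ∈ domSub T χ := by
      refine ⟨‖g.fst‖, fun y => ?_⟩
      have h0 := (Submodule.mem_orthogonal' _ _).1 hg (ι y) ⟨y, rfl⟩
      rw [WithLp.prod_inner_apply] at h0
      have e : ⟪g.snd, jv χ y⟫_ℂ = -⟪g.fst, (T.e y : UniformSpace.Completion V)⟫_ℂ :=
        eq_neg_of_add_eq_zero_right h0
      rw [e, norm_neg]
      exact (norm_inner_le_norm _ _).trans (by rw [UniformSpace.Completion.norm_coe])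
    rw [WithLp.prod_inner_apply]
    simp only [w, inner_zero_right, zero_add]
    exact (Submodule.mem_orthogonal _ _).1 hv _ hD
  rw [Submodule.orthogonal_orthogonal_eq_closure] at hperp
  intro ε hε
  obtain ⟨p, hp, hdist⟩ := Metric.mem_closure_iff.1
    (by rwa [← Submodule.topologicalClosure_coe] :
      w ∈ closure ((LinearMap.range ι : Submodule ℂ _) : Set (WithLp 2 (UniformSpace.Completion V × χ.GNS)))) ε hε
  obtain ⟨y, rfl⟩ := hp
  rw [dist_comm, dist_eq_norm] at hdist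
  have hsq := WithLp.prod_norm_sq_eq_of_L2 (ι y - w)
  have e1 : (ι y - w).fst = (T.e y : UniformSpace.Completion V) := by simp [ι, w]
  have e2 : (ι y - w).snd = jv χ y - v := by simp [ι, w]
  rw [e1, e2, UniformSpace.Completion.norm_coe] at hsq
  exact ⟨y, by nlinarith [norm_nonneg (T.e y), norm_nonneg (ι y - w), sq_nonneg ‖jv χ y - v‖],
    by nlinarith [norm_nonneg (jv χ y - v), norm_nonneg (ι y - w), sq_nonneg ‖T.e y‖]⟩

/-- On limits of bounded vectors the representation is trace-norm continuous. -/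
theorem modulus {η : χ.GNS} (hη : η ∈ (domSub T χ).topologicalClosure) {ε : ℝ} (hε : 0 < ε) :
    ∃ δ : ℝ, 0 < δ ∧
      ∀ x : A, ‖x‖ ≤ 2 → ‖T.e x‖ ≤ δ → ‖χ.gnsNonUnitalStarAlgHom x η‖ ≤ ε := by
  rw [← SetLike.mem_coe, Submodule.topologicalClosure_coe, Metric.mem_closure_iff] at hη
  obtain ⟨u, ⟨C, hC⟩, hu⟩ := hη (ε / 4) (by positivity)
  rw [dist_eq_norm] at hu
  have hdense : DenseRange (fun y : A => jv χ y) :=
    UniformSpace.Completion.denseRange_coe (α := χ.PreGNS)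
  obtain ⟨b, hb⟩ := hdense.exists_dist_lt u
    (show 0 < ε ^ 2 / (32 * (‖u‖ + 1)) by positivity)
  rw [dist_eq_norm] at hb
  refine ⟨ε ^ 2 / (16 * (|C| + 1) * (‖b‖ + 1)), by positivity, fun x hx hxe => ?_⟩
  set π := χ.gnsNonUnitalStarAlgHom
  have h1 : ‖π x (η - u)‖ ≤ ε / 2 := by
    refine (norm_pi_le χ x _).trans ?_
    nlinarith [norm_nonneg (η - u)]
  have hx2 : ‖star x * x‖ ≤ 4 := by
    rw [CStarRing.norm_star_mul_self]; nlinarith [norm_nonneg x]
  have h2 : ‖π x u‖ ^ 2 ≤ ε ^ 2 / 4 := by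
    have e : ((‖π x u‖ ^ 2 : ℝ) : ℂ) = ⟪u, jv χ (star x * x * b)⟫_ℂ
        + ⟪u, π (star x * x) (u - jv χ b)⟫_ℂ := by
      rw [← pi_jv, ← inner_add_right, ← map_add, add_sub_cancel, map_mul, map_star,
        mul_apply_eq_comp, ContinuousLinearMap.star_eq_adjoint, ContinuousLinearMap.adjoint_inner_right,
        inner_self_eq_norm_sq_to_K]
      push_cast
      rfl
    have n1 : ‖⟪u, jv χ (star x * x * b)⟫_ℂ‖ ≤
        |C| * (2 * (ε ^ 2 / (16 * (|C| + 1) * (‖b‖ + 1)) * ‖b‖)) := by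
      refine (hC _).trans ((mul_le_mul_of_nonneg_right (le_abs_self C) (norm_nonneg _)).trans
        (mul_le_mul_of_nonneg_left ?_ (abs_nonneg C)))
      rw [mul_assoc]
      refine (T.mul_le _ _).trans ?_
      rw [norm_star]
      exact mul_le_mul hx ((T.mul_le' x b).trans (mul_le_mul_of_nonneg_right hxe (norm_nonneg _)))
        (norm_nonneg _) zero_le_two
    have n2 : ‖⟪u, π (star x * x) (u - jv χ b)⟫_ℂ‖ ≤
        ‖u‖ * (4 * (ε ^ 2 / (32 * (‖u‖ + 1)))) :=
      (norm_inner_le_norm _ _).trans (mul_le_mul_of_nonneg_left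
        ((norm_pi_le χ _ _).trans (mul_le_mul hx2 hb.le (norm_nonneg _) (by norm_num)))
        (norm_nonneg _))
    have m1 : |C| * (2 * (ε ^ 2 / (16 * (|C| + 1) * (‖b‖ + 1)) * ‖b‖)) ≤ ε ^ 2 / 8 := by
      have q1 : |C| / (|C| + 1) ≤ 1 := (div_le_one (by positivity)).2 (le_add_of_nonneg_right zero_le_one)
      have q2 : ‖b‖ / (‖b‖ + 1) ≤ 1 := (div_le_one (by positivity)).2 (le_add_of_nonneg_right zero_le_one)
      calc _ = ε ^ 2 / 8 * ((|C| / (|C| + 1)) * (‖b‖ / (‖b‖ + 1))) := by field_simp; ring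
        _ ≤ ε ^ 2 / 8 * (1 * 1) := by gcongr
        _ = _ := by ring
    have m2 : ‖u‖ * (4 * (ε ^ 2 / (32 * (‖u‖ + 1)))) ≤ ε ^ 2 / 8 := by
      have q : ‖u‖ / (‖u‖ + 1) ≤ 1 := (div_le_one (by positivity)).2 (le_add_of_nonneg_right zero_le_one)
      calc _ = ε ^ 2 / 8 * (‖u‖ / (‖u‖ + 1)) := by field_simp; ring
        _ ≤ ε ^ 2 / 8 * 1 := by gcongr
        _ = _ := mul_one _
    have : ‖((‖π x u‖ ^ 2 : ℝ) : ℂ)‖ ≤ ε ^ 2 / 4 := by
      rw [e]; exact (norm_add_le _ _).trans (by linarith)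
    rwa [Complex.norm_real, Real.norm_of_nonneg (sq_nonneg _)] at this
  have h3 : ‖π x u‖ ≤ ε / 2 :=
    nonneg_le_nonneg_of_sq_le_sq (by positivity) (by nlinarith)
  calc ‖π x η‖ = ‖π x (η - u) + π x u‖ := by rw [map_sub, sub_add_cancel]
    _ ≤ _ := norm_add_le _ _
    _ ≤ ε := by linarith

theorem exists_decomp : ∃ η v : χ.GNS,
    η ∈ (domSub T χ).topologicalClosure ∧ Sing T χ v ∧ η + v = jv χ 1 := by
  have : (domSub T χ).topologicalClosure.HasOrthogonalProjection := inferInstance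
  refine ⟨(domSub T χ).topologicalClosure.starProjection (jv χ 1),
    jv χ 1 - (domSub T χ).topologicalClosure.starProjection (jv χ 1),
    Submodule.starProjection_apply_mem _ _, sing_of_orthogonal T χ ?_, add_sub_cancel _ _⟩
  exact Submodule.orthogonal_le (Submodule.le_topologicalClosure _)
    (Submodule.sub_starProjection_mem_orthogonal _)

/-! ## Cut-offs -/

theorem exists_cutoff (s : Finset (Σ χ : A →ₚ[ℂ] ℂ, {v : χ.GNS // Sing T χ v})) (n : ℕ) :
    ∃ E : A, ‖E‖ ≤ 1 ∧ IsSelfAdjoint E ∧ ‖T.e (E - 1)‖ ^ 2 ≤ 1 / ((n : ℝ) + 1) ∧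
      ∀ p ∈ s, ‖p.1.gnsNonUnitalStarAlgHom E p.2.1‖ ≤
        (1 + ‖jv p.1 1‖) * (1 / ((n : ℝ) + 1)) := by
  classical
  set ε : ℝ := 1 / ((n : ℝ) + 1) with hεdef
  have hε : 0 < ε := by positivity
  set N : ℝ := ((n : ℝ) + 1) ^ 2 with hNdef
  have hN : 0 < N := by positivity
  set d : ℝ := min ε (Real.sqrt (ε / (N * (s.card + 1)))) with hddef
  have hd : 0 < d := lt_min hε (Real.sqrt_pos.2 (by positivity))
  choose y hy1 hy2 using fun p : Σ χ : A →ₚ[ℂ] ℂ, {v : χ.GNS // Sing T χ v} => p.2.2 d hd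
  set Y : A := ∑ p ∈ s, y p * star (y p) with hY
  have hY0 : 0 ≤ Y := Finset.sum_nonneg fun p _ => mul_star_self_nonneg _
  have hYs : IsSelfAdjoint Y := IsSelfAdjoint.of_nonneg hY0
  have hsp : ∀ t ∈ spectrum ℝ Y, 0 ≤ t := fun t ht => spectrum_nonneg_of_nonneg hY0 ht
  have hden : ∀ t ∈ spectrum ℝ Y, (1 : ℝ) + N * t ≠ 0 := fun t ht => by
    have := hsp t ht; positivity
  have hc1 : ContinuousOn (fun t : ℝ => (1 + N * t)⁻¹) (spectrum ℝ Y) :=
    (by fun_prop : Continuous fun t : ℝ => 1 + N * t).continuousOn.inv₀ hden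
  set E : A := cfc (fun t : ℝ => (1 + N * t)⁻¹) Y with hE
  have hEs : IsSelfAdjoint E := cfc_predicate _ Y
  have hE1 : ‖E‖ ≤ 1 := norm_cfc_le zero_le_one fun t ht => by
    have h0 := hsp t ht
    rw [Real.norm_eq_abs, abs_of_nonneg (by positivity)]
    exact inv_le_one_of_one_le₀ (le_add_of_nonneg_right (by positivity))
  have hEY : ‖E * Y * E‖ ≤ ε ^ 2 := by
    have e : E * Y * E = cfc (fun t : ℝ => (1 + N * t)⁻¹ * t * (1 + N * t)⁻¹) Y := by
      rw [cfc_mul (fun t : ℝ => (1 + N * t)⁻¹ * t) _ Y (hc1.mul continuousOn_id) hc1,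
        cfc_mul _ (fun t : ℝ => t) Y hc1 continuousOn_id, cfc_id' ℝ Y]
    rw [e]
    refine norm_cfc_le (sq_nonneg ε) fun t ht => ?_
    have h0 := hsp t ht
    rw [Real.norm_eq_abs, abs_of_nonneg (by positivity)]
    have h1 : (1 + N * t)⁻¹ ≤ 1 := inv_le_one_of_one_le₀ (le_add_of_nonneg_right (by positivity))
    have h2 : (1 + N * t)⁻¹ * t ≤ ε ^ 2 := by
      rw [inv_mul_le_iff₀ (by positivity), show ε ^ 2 = N⁻¹ by rw [hεdef, hNdef, div_pow, one_pow, one_div],
        add_mul, one_mul, mul_assoc, mul_comm t, ← mul_assoc, mul_inv_cancel₀ hN.ne', one_mul]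
      exact le_add_of_nonneg_left (by positivity)
    calc _ ≤ (1 + N * t)⁻¹ * t * 1 := mul_le_mul_of_nonneg_left h1 (by positivity)
      _ ≤ _ := by rw [mul_one]; exact h2
  have htr : ((‖T.e (E - 1)‖ ^ 2 : ℝ) : ℂ).re ≤ N * (T.tr Y).re := by
    have hf : ContinuousOn (fun t : ℝ => (1 + N * t)⁻¹ - 1) (spectrum ℝ Y) :=
      hc1.sub continuousOn_const
    have hE' : E - 1 = cfc (fun t : ℝ => (1 + N * t)⁻¹ - 1) Y := by
      rw [cfc_sub _ _ Y hc1 continuousOn_const, cfc_const_one ℝ Y]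
    have hge : 0 ≤ (N : ℂ) • Y - star (E - 1) * (E - 1) := by
      have hsE : star (E - 1) = E - 1 := by rw [star_sub, hEs.star_eq, star_one]
      rw [hsE, hE', ← cfc_mul _ _ Y hf hf, Complex.coe_smul, ← cfc_const_mul_id N Y,
        ← cfc_sub (fun t : ℝ => N * t) (fun t : ℝ => ((1 + N * t)⁻¹ - 1) * ((1 + N * t)⁻¹ - 1)) Y
          (by fun_prop) (hf.mul hf)]
      refine cfc_nonneg fun t ht => ?_
      have h0 := hsp t ht
      have h1 : (1 + N * t)⁻¹ - 1 = -(N * t) / (1 + N * t) := by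
        field_simp [hden t ht]; ring
      rw [h1, div_mul_div_comm, sub_nonneg, div_le_iff₀ (by positivity)]
      nlinarith [mul_nonneg hN.le h0, mul_nonneg (mul_nonneg hN.le h0) (mul_nonneg hN.le h0),
        mul_nonneg (mul_nonneg (mul_nonneg hN.le h0) (mul_nonneg hN.le h0)) (mul_nonneg hN.le h0)]
    obtain ⟨c, hc, hcc⟩ := exists_sqrt hge
    have h0 : 0 ≤ (T.tr (c * c)).re := by
      nth_rw 1 [← hc.star_eq]
      rw [← norm_e_sq, Complex.ofReal_re]
      positivity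
    have hl : T.tr ((N : ℂ) • Y - star (E - 1) * (E - 1))
        = (N : ℂ) * T.tr Y - T.tr (star (E - 1) * (E - 1)) := by
      simp only [Tr.tr, map_sub, map_smul, inner_sub_right, inner_smul_right]
    rw [hcc, hl, ← norm_e_sq, Complex.sub_re, Complex.re_ofReal_mul] at h0
    linarith
  have hTY : (T.tr Y).re ≤ s.card * d ^ 2 := by
    have : T.tr Y = ∑ p ∈ s, T.tr (y p * star (y p)) := by
      simp only [Tr.tr, hY, map_sum, inner_sum]
    rw [this, Complex.re_sum]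
    refine (Finset.sum_le_card_nsmul _ _ (d ^ 2) fun p _ => ?_).trans_eq (nsmul_eq_mul _ _)
    rw [Tr.tr, T.comm, ← Tr.tr, ← norm_e_sq, Complex.ofReal_re]
    exact pow_le_pow_left₀ (norm_nonneg _) (hy1 p).le 2
  refine ⟨E, hE1, hEs, ?_, fun p hp => ?_⟩
  · rw [Complex.ofReal_re] at htr
    have hd2 : d ^ 2 ≤ ε / (N * (s.card + 1)) :=
      (pow_le_pow_left₀ hd.le (min_le_right _ _) 2).trans_eq (Real.sq_sqrt (by positivity))
    calc ‖T.e (E - 1)‖ ^ 2 ≤ N * (T.tr Y).re := htr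
      _ ≤ N * ((s.card : ℝ) * (ε / (N * (s.card + 1)))) := by
          gcongr; exact hTY.trans (by gcongr)
      _ = ε * ((s.card : ℝ) / (s.card + 1)) := by field_simp
      _ ≤ ε * 1 := by
          gcongr
          exact (div_le_one (by positivity)).2 (le_add_of_nonneg_right zero_le_one)
      _ = ε := mul_one ε
  · have hEy : ‖E * y p‖ ≤ ε := by
      refine nonneg_le_nonneg_of_sq_le_sq hε.le ?_
      rw [← sq, ← sq, sq, ← CStarRing.norm_self_mul_star (x := E * y p), star_mul, hEs.star_eq]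
      refine le_trans ?_ hEY
      refine CStarAlgebra.norm_le_norm_of_nonneg_of_le ?_ ?_
      · have := mul_star_self_nonneg (E * y p)
        rwa [star_mul, hEs.star_eq] at this
      · have h1 : y p * star (y p) ≤ Y :=
          Finset.single_le_sum (f := fun q => y q * star (y q))
            (fun q _ => mul_star_self_nonneg _) hp
        have h2 := conj_nonneg (sub_nonneg.2 h1) E
        rw [hEs.star_eq, mul_sub, sub_mul, sub_nonneg] at h2
        simpa only [mul_assoc] using h2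
    have hEv : ‖p.1.gnsNonUnitalStarAlgHom E (jv p.1 (y p))‖ ≤ ε * ‖jv p.1 1‖ := by
      rw [show p.1.gnsNonUnitalStarAlgHom E (jv p.1 (y p))
          = p.1.gnsNonUnitalStarAlgHom (E * y p) (jv p.1 1) by rw [pi_jv, pi_jv, mul_one]]
      exact (norm_pi_le _ _ _).trans (mul_le_mul_of_nonneg_right hEy (norm_nonneg _))
    have hdiff : ‖p.1.gnsNonUnitalStarAlgHom E (p.2.1 - jv p.1 (y p))‖ ≤ ε := by
      refine (norm_pi_le _ _ _).trans ((mul_le_of_le_one_left (norm_nonneg _) hE1).trans ?_)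
      rw [norm_sub_rev]
      exact (hy2 p).le.trans (min_le_left _ _)
    calc ‖p.1.gnsNonUnitalStarAlgHom E p.2.1‖
        = ‖p.1.gnsNonUnitalStarAlgHom E (p.2.1 - jv p.1 (y p))
            + p.1.gnsNonUnitalStarAlgHom E (jv p.1 (y p))‖ := by rw [map_sub, sub_add_cancel]
      _ ≤ _ := norm_add_le _ _
      _ ≤ (1 + ‖jv p.1 1‖) * ε := by linarith

/-- The net of cut-offs. -/
theorem exists_net : ∃ (ι : Type u) (l : Ultrafilter ι) (E : ι → A),
    (∀ i, ‖E i‖ ≤ 1 ∧ IsSelfAdjoint (E i)) ∧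
      Tendsto (fun i => ‖T.e (E i - 1)‖) (l : Filter ι) (𝓝 0) ∧
      ∀ (χ : A →ₚ[ℂ] ℂ) (v : χ.GNS), Sing T χ v →
        Tendsto (fun i => ‖χ.gnsNonUnitalStarAlgHom (E i) v‖) (l : Filter ι) (𝓝 0) := by
  classical
  let ι : Type u := ℕ × Finset (Σ χ : A →ₚ[ℂ] ℂ, {v : χ.GNS // Sing T χ v})
  choose E hE1 hEs hE2 hE3 using fun i : ι => exists_cutoff T i.2 i.1
  let l : Ultrafilter ι := Ultrafilter.of atTop
  have hl : (l : Filter ι) ≤ atTop := Ultrafilter.of_le atTop
  have hfst : Tendsto (fun i : ι => i.1) l atTop :=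
    (tendsto_fst.comp (le_of_eq prod_atTop_atTop_eq.symm)).mono_left hl
  have hone : Tendsto (fun i : ι => 1 / ((i.1 : ℝ) + 1)) l (𝓝 0) :=
    tendsto_one_div_add_atTop_nhds_zero_nat.comp hfst
  refine ⟨ι, l, E, fun i => ⟨hE1 i, hEs i⟩, ?_, fun χ v hv => ?_⟩
  · refine squeeze_zero (fun i => norm_nonneg _) (fun i => Real.le_sqrt_of_sq_le (hE2 i)) ?_
    simpa using hone.sqrt
  · let p : Σ χ : A →ₚ[ℂ] ℂ, {v : χ.GNS // Sing T χ v} := ⟨χ, v, hv⟩
    have hev : ∀ᶠ i in (l : Filter ι), p ∈ i.2 :=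
      ((eventually_ge_atTop ((0, {p}) : ι)).filter_mono hl).mono
        fun i hi => hi.2 (Finset.mem_singleton_self p)
    refine squeeze_zero' (Eventually.of_forall fun i => norm_nonneg _)
      (hev.mono fun i hi => hE3 i p hi) ?_
    simpa using hone.const_mul (1 + ‖jv χ 1‖)

/-- Along the cut-offs a bounded map is eventually small on elements of small trace norm. -/
theorem exists_modulus (F : A →L[ℂ] A) {ι : Type u} {l : Ultrafilter ι} {E : ι → A}
    (hE : ∀ i, ‖E i‖ ≤ 1 ∧ IsSelfAdjoint (E i))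
    (hlim : Tendsto (fun i => ‖T.e (E i - 1)‖) (l : Filter ι) (𝓝 0))
    (hkill : ∀ (χ : A →ₚ[ℂ] ℂ) (v : χ.GNS), Sing T χ v →
      Tendsto (fun i => ‖χ.gnsNonUnitalStarAlgHom (E i) v‖) (l : Filter ι) (𝓝 0))
    {ε : ℝ} (hε : 0 < ε) :
    ∃ δ : ℝ, 0 < δ ∧ ∀ b : A, ‖b‖ ≤ 1 → ‖T.e b‖ ≤ δ →
      ∀ᶠ i in (l : Filter ι), ‖T.e (F (E i * b))‖ ≤ ε := by
  obtain ⟨χ, hχ⟩ := exists_dominating (eComp T F)
  obtain ⟨η, v, hη, hv, hsum⟩ := exists_decomp T χ
  obtain ⟨δ, hδ, hmod⟩ := modulus T χ hη (show 0 < ε / 10 by positivity)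
  refine ⟨δ, hδ, fun b hb hbe => ?_⟩
  set π := χ.gnsNonUnitalStarAlgHom
  have hbs : ‖star b‖ ≤ 1 := by rwa [norm_star]
  have hbη : ‖π b η‖ ≤ ε / 10 := hmod b (by linarith) hbe
  have hbsη : ‖π (star b) η‖ ≤ ε / 10 :=
    hmod _ (by linarith) (by rwa [norm_e_star])
  have hEη : ∀ᶠ i in (l : Filter ι), ‖π (E i - 1) η‖ ≤ ε / 10 :=
    (hlim.eventually (eventually_le_nhds hδ)).mono fun i hi => hmod _ (by
      have h1 : ‖(1 : A)‖ ≤ 1 := Groth.norm_unitary_le (one_mem _)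
      linarith [norm_sub_le (E i) 1, (hE i).1]) hi
  have hε10 : (0 : ℝ) < ε / 10 := by positivity
  filter_upwards [hEη, (hkill χ v hv).eventually (eventually_le_nhds hε10),
    (hkill χ _ (sing_pi T χ hv b)).eventually (eventually_le_nhds hε10)] with i he hi1 hi2
  have hj1 : ‖jv χ (E i * b)‖ ≤ 2 * (ε / 10) := by
    have e : jv χ (E i * b) = π (E i) (π b η) + π (E i) (π b v) := by
      rw [← map_add, ← map_add, hsum, pi_jv, pi_jv, mul_one]
    rw [e]
    refine (norm_add_le _ _).trans ?_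
    have := ((norm_pi_le χ (E i) (π b η)).trans
      (mul_le_of_le_one_left (norm_nonneg _) (hE i).1))
    linarith
  have hj2 : ‖jv χ (star (E i * b))‖ ≤ 3 * (ε / 10) := by
    have h1η : π 1 η = η := by
      have h := congrArg (fun P => P η) (map_one χ.gnsStarAlgHom)
      exact h
    have e : jv χ (star (E i * b)) = π (star b) η + π (star b) (π (E i - 1) η)
        + π (star b) (π (E i) v) := by
      rw [← map_add, ← map_add, map_sub π (E i) 1, sub_apply, h1η,
        add_sub_cancel, ← map_add, hsum, pi_jv, pi_jv, mul_one, star_mul, (hE i).2.star_eq]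
    rw [e]
    have q1 := (norm_pi_le χ (star b) (π (E i - 1) η)).trans
      (mul_le_of_le_one_left (norm_nonneg _) hbs)
    have q2 := (norm_pi_le χ (star b) (π (E i) v)).trans
      (mul_le_of_le_one_left (norm_nonneg _) hbs)
    exact (norm_add_le _ _).trans (by
      have := norm_add_le (π (star b) η) (π (star b) (π (E i - 1) η))
      linarith)
  have h := hχ (E i * b)
  rw [eComp_apply, ← norm_jv_sq] at h
  have h' : (χ (E i * b * star (E i * b))).re = ‖jv χ (star (E i * b))‖ ^ 2 := by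
    rw [norm_jv_sq, star_star]
  rw [h'] at h
  refine nonneg_le_nonneg_of_sq_le_sq hε.le ?_
  nlinarith [norm_nonneg (jv χ (E i * b)), norm_nonneg (jv χ (star (E i * b)))]

/-- Elements with the same pairings are equal. -/
theorem eq_of_tr_eq {a c : A} (h : ∀ y, T.tr (y * a) = T.tr (y * c)) : a = c := by
  refine sub_eq_zero.1 (T.faithful _ (norm_eq_zero.1 (sq_eq_zero_iff.1 (Complex.ofReal_inj.1 ?_))))
  rw [norm_e_sq, Complex.ofReal_zero, mul_sub, Tr.tr, map_sub, inner_sub_right, sub_eq_zero]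
  exact h _

end Normal

open Vale.Agent.P082.Normal in
/-- The cut-offs extract the normal part of every bounded map. -/
theorem normalOut (T : Tr A V) (hL : T.WeakLim) : T.NormalOut := by
  obtain ⟨ι, l, E, hE, hlim, hkill⟩ := exists_net T
  refine ⟨ι, l, E, fun i => (hE i).1, hlim, fun F => ?_⟩
  choose Φ hΦn hΦ using fun b => hL ι l (fun i => F (E i * b)) (‖F‖ * ‖b‖) fun i =>
    (F.le_opNorm _).trans (mul_le_mul_of_nonneg_left
      ((norm_mul_le _ _).trans (mul_le_of_le_one_left (norm_nonneg _) (hE i).1)) (norm_nonneg _))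
  let Φl : A →ₗ[ℂ] A :=
    { toFun := Φ
      map_add' := fun a c => eq_of_tr_eq T fun y => tendsto_nhds_unique (hΦ (a + c) y) <| by
        have := (hΦ a y).add (hΦ c y)
        simpa only [Tr.tr, mul_add, map_add, inner_add_right] using this
      map_smul' := fun r a => eq_of_tr_eq T fun y => tendsto_nhds_unique (hΦ (r • a) y) <| by
        have := (hΦ a y).const_mul r
        simpa only [Tr.tr, mul_smul_comm, map_smul, inner_smul_right, RingHom.id_apply] using this }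
  refine ⟨Φl.mkContinuous ‖F‖ hΦn, fun ε hε => ?_, fun b y => hΦ b y⟩
  obtain ⟨δ, hδ, hmod⟩ := exists_modulus T F hE hlim hkill hε
  refine ⟨δ, hδ, fun b hb hbe => ?_⟩
  show ‖T.e (Φ b)‖ ≤ ε
  have h1 : Tendsto (fun i => ‖T.tr (star (Φ b) * F (E i * b))‖) (l : Filter ι)
      (𝓝 (‖T.e (Φ b)‖ ^ 2)) := by
    have := (hΦ b (star (Φ b))).norm
    rwa [← norm_e_sq, Complex.norm_real, Real.norm_of_nonneg (sq_nonneg _)] at this
  have hkey : ‖T.e (Φ b)‖ ^ 2 ≤ ‖T.e (Φ b)‖ * ε := le_of_tendsto h1 ((hmod b hb hbe).mono fun i hi => by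
    rw [Tr.tr, ← T.inner_eq]
    exact (norm_inner_le_norm _ _).trans (mul_le_mul_of_nonneg_left hi (norm_nonneg _)))
  rcases eq_or_lt_of_le (norm_nonneg (T.e (Φ b))) with h0 | h0
  · rw [← h0]; exact hε.le
  · exact le_of_mul_le_mul_left (by rwa [← sq]) h0

end Vale.Agent.P082
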