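import Vale.Agent.P082.Global.Spec
import Vale.Agent.P104.Sim.Compare
import Vale.Agent.P104.Sim.CenterExp
import Vale.Agent.P132.Homog.TypeIII.Polar

/-!
# Near isometries are near unitaries; weak limits

In a finite algebra the isometric part of `x` is completed to a unitary `u` with `x = u a`,
`a = (x⋆ x)^½`, and `|a - 1| ≤ |a ^ 2 - 1|`.
-/

noncomputable section

namespace Vale.Agent.P082

open Filter Topology
open P132.Homog.TypeIII (PI exists_slim inner_left isProj_mul_self apply_apply_self)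
open Vale.Agent.P078.General (mem_vna_of_commute commute_of_mem_centralizer)
open Vale.Agent.P085 (IsNormalTrace vecState)
open Vale.Agent.P104.Patch (Alg evec)
open scoped InnerProductSpace

universe u

variable {H : Type u} [NormedAddCommGroup H] [InnerProductSpace ℂ H] [CompleteSpace H]
variable {M : VonNeumannAlgebra H} {ξ : ℕ → H}

/-- `x = u (x⋆ x)^½` with a partial isometry `u` whose initial projection fixes `(x⋆ x)^½`
(proof adapted from `P132.Homog.TypeIII.exists_polar`). -/
theorem exists_isometric_part {x : H →L[ℂ] H} (hx : x ∈ M) :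
    ∃ u, PI M u ∧ x = u * cfc Real.sqrt (star x * x) ∧
      (star u * u) * cfc Real.sqrt (star x * x) = cfc Real.sqrt (star x * x) := by
  set S : H →L[ℂ] H := star x * x with hSdef
  have hS : IsSelfAdjoint S := IsSelfAdjoint.star_mul_self x
  have hspec : ∀ z ∈ spectrum ℝ S, 0 ≤ z := fun z hz =>
    spectrum_nonneg_of_nonneg (star_mul_self_nonneg x) hz
  set a : H →L[ℂ] H := cfc Real.sqrt S with hadef
  have has : IsSelfAdjoint a := cfc_predicate _ S
  have haa : a * a = S := by
    rw [hadef, ← cfc_mul Real.sqrt Real.sqrt S]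
    conv_rhs => rw [← cfc_id ℝ S hS]
    exact cfc_congr fun z hz => Real.mul_self_sqrt (hspec z hz)
  have hax : ∀ v, ‖a v‖ = ‖x v‖ := by
    intro v
    refine (sq_eq_sq₀ (norm_nonneg _) (norm_nonneg _)).1 ?_
    rw [@norm_sq_eq_re_inner ℂ, @norm_sq_eq_re_inner ℂ, inner_left a, has.star_eq, inner_left x]
    exact congrArg _ (congrArg _ (DFunLike.congr_fun haa v))
  let t : ℕ → ℝ := fun n => ((n : ℝ) + 1)⁻¹
  have ht : ∀ n, 0 < t n := fun n => by positivity
  let g : ℕ → H →L[ℂ] H := fun n => cfc (fun z : ℝ => (Real.sqrt (max z (t n)))⁻¹) S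
  have hgc : ∀ n, Continuous fun z : ℝ => (Real.sqrt (max z (t n)))⁻¹ := fun n =>
    (by fun_prop : Continuous fun z : ℝ => Real.sqrt (max z (t n))).inv₀ fun z =>
      (Real.sqrt_pos.2 (lt_max_of_lt_right (ht n))).ne'
  have hga : ∀ n, a * g n = cfc (fun z : ℝ => Real.sqrt z * (Real.sqrt (max z (t n)))⁻¹) S :=
    fun n => (cfc_mul Real.sqrt (fun z : ℝ => (Real.sqrt (max z (t n)))⁻¹) S
      Real.continuous_sqrt.continuousOn (hgc n).continuousOn).symm
  have hcomm : ∀ n, a * g n = g n * a := fun n => (cfc_commute_cfc _ _ S).eq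
  have hnag : ∀ n, ‖a * g n‖ ≤ 1 := fun n => by
    rw [hga]
    refine norm_cfc_le zero_le_one fun z _ => ?_
    rw [Real.norm_eq_abs, abs_of_nonneg (by positivity), ← div_eq_mul_inv,
      div_le_one (Real.sqrt_pos.2 (lt_max_of_lt_right (ht n)))]
    exact Real.sqrt_le_sqrt (le_max_left _ _)
  have hsmall : ∀ n, ‖a * (g n * a) - a‖ ≤ Real.sqrt (t n) := fun n => by
    rw [← mul_assoc, hga n]
    have e : cfc (fun z : ℝ => Real.sqrt z * (Real.sqrt (max z (t n)))⁻¹) S * a - a
        = cfc (fun z : ℝ => Real.sqrt z * (Real.sqrt (max z (t n)))⁻¹ * Real.sqrt z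
            - Real.sqrt z) S := by
      have hc : Continuous fun z : ℝ => Real.sqrt z * (Real.sqrt (max z (t n)))⁻¹ :=
        Real.continuous_sqrt.mul (hgc n)
      rw [cfc_sub (fun z : ℝ => Real.sqrt z * (Real.sqrt (max z (t n)))⁻¹ * Real.sqrt z) Real.sqrt S
          (hc.mul Real.continuous_sqrt).continuousOn Real.continuous_sqrt.continuousOn,
        cfc_mul (fun z : ℝ => Real.sqrt z * (Real.sqrt (max z (t n)))⁻¹) Real.sqrt S
          hc.continuousOn Real.continuous_sqrt.continuousOn]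
    rw [e]
    refine norm_cfc_le (Real.sqrt_nonneg _) fun z hz => ?_
    have h0 := hspec z hz
    rcases le_total (t n) z with h | h
    · rw [max_eq_left h]
      have : Real.sqrt z ≠ 0 := (Real.sqrt_pos.2 (lt_of_lt_of_le (ht n) h)).ne'
      simp [this]
    · rw [max_eq_right h, Real.norm_eq_abs]
      have hp := Real.sqrt_pos.2 (ht n)
      have hle := Real.sqrt_le_sqrt h
      have h1 : Real.sqrt z * (Real.sqrt (t n))⁻¹ ≤ 1 := by
        rw [← div_eq_mul_inv, div_le_one hp]; exact hle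
      have h2 : 0 ≤ Real.sqrt z * (Real.sqrt (t n))⁻¹ := by positivity
      rw [abs_le]
      constructor <;> nlinarith [Real.sqrt_nonneg z]
  have ht0 : Tendsto (fun n => Real.sqrt (t n)) atTop (𝓝 0) := by
    have h1 : Tendsto t atTop (𝓝 0) := by
      simpa [t, one_div] using (tendsto_one_div_add_atTop_nhds_zero_nat (𝕜 := ℝ))
    have h2 := (Real.continuous_sqrt.tendsto 0).comp h1
    rw [Real.sqrt_zero] at h2
    exact h2
  let K : Submodule ℂ H := a.range.topologicalClosure
  have : CompleteSpace K := Submodule.topologicalClosure.completeSpace _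
  set P := K.starProjection with hP
  have hPproj : IsStarProjection P := isStarProjection_starProjection
  have hker : ∀ v, a (v - P v) = 0 := by
    intro v
    have h := K.sub_starProjection_mem_orthogonal v
    rw [Submodule.mem_orthogonal] at h
    have h2 := h (a (a (v - P v))) (a.range.le_topologicalClosure ⟨_, rfl⟩)
    rw [inner_left a, has.star_eq] at h2
    exact inner_self_eq_zero.1 h2
  let s : ℕ → H →L[ℂ] H := fun n => x * g n
  have hsn : ∀ n v, ‖s n v‖ = ‖a (g n v)‖ := fun n v => (hax _).symm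
  have hs1 : ∀ n, ‖s n‖ ≤ 1 := fun n => (s n).opNorm_le_bound zero_le_one fun v => by
    rw [hsn]
    exact (a * g n).le_of_opNorm_le (hnag n) v
  have hlim_range : ∀ w, Tendsto (fun n => s n (a w)) atTop (𝓝 (x w)) := fun w => by
    rw [tendsto_iff_norm_sub_tendsto_zero]
    refine squeeze_zero (fun n => norm_nonneg _) (fun n => ?_)
      (by simpa using ht0.mul_const ‖w‖)
    have e : s n (a w) - x w = x (g n (a w) - w) := by simp [s]
    rw [e, ← hax, map_sub]
    exact (a * (g n * a) - a).le_of_opNorm_le (hsmall n) w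
  have hcauchy : ∀ v ∈ K, CauchySeq fun n => s n v := by
    intro v hv
    rw [Metric.cauchySeq_iff']
    intro ε hε
    obtain ⟨_, ⟨w, rfl⟩, hw⟩ := Metric.mem_closure_iff.1 hv (ε / 3) (by linarith)
    obtain ⟨N, hN⟩ := Metric.cauchySeq_iff'.1 (hlim_range w).cauchySeq (ε / 3) (by linarith)
    refine ⟨N, fun n hn => ?_⟩
    have hb : ∀ k, dist (s k v) (s k (a w)) < ε / 3 := fun k => by
      rw [dist_eq_norm, ← map_sub]
      calc ‖s k (v - a w)‖ ≤ 1 * ‖v - a w‖ := (s k).le_of_opNorm_le (hs1 k) _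
        _ < ε / 3 := by rw [one_mul, ← dist_eq_norm]; exact hw
    have := dist_triangle4 (s n v) (s n (a w)) (s N (a w)) (s N v)
    have h2 := hb N
    rw [dist_comm] at h2
    linarith [hb n, hN n hn]
  have hsker : ∀ n v, s n (v - P v) = 0 := fun n v => by
    have h1 : a (g n (v - P v)) = 0 := by
      rw [show a (g n (v - P v)) = g n (a (v - P v)) from DFunLike.congr_fun (hcomm n) _, hker,
        map_zero]
    exact norm_eq_zero.1 (by rw [hsn, h1, norm_zero])
  have hsP : ∀ n v, s n v = s n (P v) := fun n v => by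
    rw [← sub_eq_zero, ← map_sub]; exact hsker n v
  obtain ⟨u, hu⟩ := exists_slim hs1 fun v => ⟨_, (cauchySeq_tendsto_of_complete
    (hcauchy (P v) (K.starProjection_apply_mem v))).choose_spec.congr fun n => (hsP n v).symm⟩
  have hgM : ∀ n, g n ∈ M := fun n => mem_vna_of_commute fun y hy =>
    ((show Commute S y from (commute_of_mem_centralizer (mul_mem (star_mem hx) hx) hy).symm).cfc_real _).eq.symm
  have huM : u ∈ M := hu.mem fun n => mul_mem hx (hgM n)
  have huP : ∀ v, u v = u (P v) := fun v =>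
    tendsto_nhds_unique (hu v) ((hu (P v)).congr fun n => (hsP n v).symm)
  have hua : ∀ w, u (a w) = x w := fun w => tendsto_nhds_unique (hu (a w)) (hlim_range w)
  have hiso : ∀ v ∈ K, ‖u v‖ = ‖v‖ := by
    intro v hv
    refine (isClosed_eq (by fun_prop : Continuous fun v => ‖u v‖) continuous_norm).closure_subset_iff.2
      ?_ hv
    rintro _ ⟨w, rfl⟩
    change ‖u (a w)‖ = ‖a w‖
    rw [hua, hax]
  have huu : star u * u = P := by
    rw [← sub_eq_zero]
    refine ContinuousLinearMap.ext fun v => ?_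
    have hq : ∀ y, ⟪(star u * u - P) y, y⟫_ℂ = 0 := fun y => by
      rw [sub_apply, inner_sub_left, sub_eq_zero]
      have e1 : ⟪(star u * u) y, y⟫_ℂ = ((‖u y‖ ^ 2 : ℝ) : ℂ) := by
        change ⟪star u (u y), y⟫_ℂ = _
        rw [inner_left, star_star, inner_self_eq_norm_sq_to_K]
        push_cast; rfl
      have e2 : ⟪P y, y⟫_ℂ = ((‖P y‖ ^ 2 : ℝ) : ℂ) := by
        conv_lhs => rw [← apply_apply_self hPproj y, inner_left, hPproj.isSelfAdjoint.star_eq]
        rw [inner_self_eq_norm_sq_to_K]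
        push_cast; rfl
      rw [e1, e2, huP y, hiso _ (K.starProjection_apply_mem y)]
    exact DFunLike.congr_fun ((inner_map_self_eq_zero (star u * u - P : H →L[ℂ] H).toLinearMap).1
      hq) v
  have hPa : P * a = a := ContinuousLinearMap.ext fun w =>
    Submodule.starProjection_eq_self_iff.2 (a.range.le_topologicalClosure ⟨w, rfl⟩)
  have hxu : x = u * a := ContinuousLinearMap.ext fun w => (hua w).symm
  refine ⟨u, ⟨huM, huu ▸ hPproj, ?_⟩, hxu, ?_⟩
  · rw [huu]; exact ContinuousLinearMap.ext fun v => (huP v).symm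
  · rw [huu]; exact hPa

/-- Left multiplication by a contraction does not increase the trace norm. -/
theorem norm_evec_contraction_mul (h : IsNormalTrace M ξ) {g y : H →L[ℂ] H} (hg : g ∈ M) (hy : y ∈ M)
    (hg1 : ‖g‖ ≤ 1) : ‖evec h (⟨g * y, mul_mem hg hy⟩ : Alg M)‖ ≤ ‖evec h (⟨y, hy⟩ : Alg M)‖ :=
  (P104.Patch.evec_mul_le h ⟨g, hg⟩ ⟨y, hy⟩).trans
    (mul_le_of_le_one_left (norm_nonneg _) hg1)

/-- Near isometries are near unitaries. -/
theorem hasPolar (h : IsNormalTrace M ξ) : (trOf h).HasPolar := by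
  rintro ⟨x, hx⟩
  obtain ⟨w, hw, hxw, hwa⟩ := exists_isometric_part hx
  set S : H →L[ℂ] H := star x * x
  set a : H →L[ℂ] H := cfc Real.sqrt S
  have hSM : S ∈ M := mul_mem (star_mem hx) hx
  have hE := P104.Sim.isCenterExp_ctr h
  set E := P104.Sim.ctr M ξ
  obtain ⟨p, hp⟩ : ∃ p : H →L[ℂ] H, p = 1 - star w * w := ⟨_, rfl⟩
  obtain ⟨q, hq⟩ : ∃ q : H →L[ℂ] H, q = 1 - w * star w := ⟨_, rfl⟩
  have hww : IsStarProjection (w * star w) := by
    refine ⟨?_, IsSelfAdjoint.mul_star_self w⟩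
    show w * star w * (w * star w) = w * star w
    rw [← mul_assoc, hw.eq']
  have hi : star w * w ∈ M := mul_mem (star_mem hw.mem) hw.mem
  have hf : w * star w ∈ M := mul_mem hw.mem (star_mem hw.mem)
  have hpP : P104.Sim.IsProj M p := ⟨hp ▸ sub_mem (one_mem M) hi, hp ▸ hw.proj.one_sub⟩
  have hqP : P104.Sim.IsProj M q := ⟨hq ▸ sub_mem (one_mem M) hf, hq ▸ hww.one_sub⟩
  have hEpq : E p = E q := by
    rw [hp, hq, hE.map_sub (one_mem M) hi, hE.map_sub (one_mem M) hf,
      hE.comm w hw.mem (star w) (star_mem hw.mem)]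
  obtain ⟨v, hv, hvv, hqv⟩ := P104.Sim.compareOut H M ξ E h hE p q hpP hqP hEpq.le
  have hvp : v * p = v := by
    have hz : star (v * p - v) * (v * p - v) = 0 := by
      rw [star_sub, star_mul, hpP.2.isSelfAdjoint.star_eq, sub_mul, mul_sub, mul_sub]
      simp only [mul_assoc]
      simp only [← mul_assoc (star v) v, hvv, hpP.2.isIdempotentElem.eq, sub_self]
    exact sub_eq_zero.1 ((CStarRing.star_mul_self_eq_zero_iff _).1 hz)
  have hvM : v * star v ∈ M := mul_mem hv (star_mem hv)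
  have hvPr : IsStarProjection (v * star v) := by
    refine ⟨?_, IsSelfAdjoint.mul_star_self v⟩
    show v * star v * (v * star v) = v * star v
    rw [← mul_assoc, mul_assoc v (star v) v, hvv, hvp]
  have hvq : v * star v * q = v * star v := by
    have := congrArg star hqv
    rwa [star_mul, hvPr.isSelfAdjoint.star_eq, hqP.2.isSelfAdjoint.star_eq] at this
  have hfull : v * star v = q := by
    have hd : IsStarProjection (q - v * star v) := by
      refine ⟨?_, hqP.2.isSelfAdjoint.sub hvPr.isSelfAdjoint⟩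
      show (q - v * star v) * (q - v * star v) = q - v * star v
      rw [mul_sub, sub_mul, sub_mul, hqP.2.isIdempotentElem.eq, hqv, hvq,
        hvPr.isIdempotentElem.eq, sub_self, sub_zero]
    have hdM : q - v * star v ∈ M := sub_mem hqP.1 hvM
    refine (sub_eq_zero.1 (h.faithful _ hdM ?_)).symm
    rw [hd.isSelfAdjoint.star_eq, hd.isIdempotentElem.eq, ← hE.trace _ hdM,
      hE.map_sub hqP.1 hvM, ← hEpq, hE.comm v hv (star v) (star_mem hv), hvv, sub_self]
    simp [vecState]
  have hwq : star w * q = 0 := by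
    rw [hq, mul_sub, mul_one, ← mul_assoc, show star w * w * star w = star w by
      have := congrArg star hw.eq
      rwa [star_mul, hw.proj.isSelfAdjoint.star_eq] at this, sub_self]
  have hwv : star w * v = 0 := by
    have : q * v = v := by
      conv_lhs => rw [← hvp, ← hvv, ← mul_assoc, ← mul_assoc, mul_assoc q v, hqv]
      rw [mul_assoc, hvv, hvp]
    rw [← this, ← mul_assoc, hwq, zero_mul]
  have hpw : p * star w = 0 := by
    rw [hp, sub_mul, one_mul, show star w * w * star w = star w by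
      have := congrArg star hw.eq
      rwa [star_mul, hw.proj.isSelfAdjoint.star_eq] at this, sub_self]
  have hvw : v * star w = 0 := by rw [← hvp, mul_assoc, hpw, mul_zero]
  have hu1 : star (w + v) * (w + v) = 1 := by
    have hvw' : star v * w = 0 := by simpa using congrArg star hwv
    rw [star_add, add_mul, mul_add, mul_add, hwv, hvw', add_zero, zero_add, hvv, hp,
      add_sub_cancel]
  have hu2 : (w + v) * star (w + v) = 1 := by
    have hwv' : w * star v = 0 := by simpa using congrArg star hvw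
    rw [star_add, add_mul, mul_add, mul_add, hwv', hvw, add_zero, zero_add, hfull, hq,
      add_sub_cancel]
  let u : unitary (Alg M) := ⟨⟨w + v, add_mem hw.mem hv⟩,
    Unitary.mem_iff.2 ⟨Subtype.ext hu1, Subtype.ext hu2⟩⟩
  refine ⟨u, ?_⟩
  have hxu : x = (w + v) * a := by
    rw [add_mul, ← hxw, ← hvp, mul_assoc, hp, sub_mul, one_mul, hwa, sub_self, mul_zero, add_zero]
  set g : H →L[ℂ] H := cfc (fun z : ℝ => (Real.sqrt z + 1)⁻¹) S with hg
  have hS : IsSelfAdjoint S := IsSelfAdjoint.star_mul_self x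
  have hgc : Continuous fun z : ℝ => (Real.sqrt z + 1)⁻¹ :=
    (Real.continuous_sqrt.add continuous_const).inv₀ fun z =>
      (by positivity : (0 : ℝ) < Real.sqrt z + 1).ne'
  have hgM : g ∈ M := mem_vna_of_commute fun y hy =>
    ((show Commute S y from (commute_of_mem_centralizer hSM hy).symm).cfc_real _).eq.symm
  have hg1 : ‖g‖ ≤ 1 := norm_cfc_le zero_le_one fun z _ => by
    rw [Real.norm_eq_abs, abs_of_nonneg (by positivity)]
    exact inv_le_one_of_one_le₀ (le_add_of_nonneg_left (Real.sqrt_nonneg z))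
  have hga : g * (S - 1) = a - 1 := by
    have e1 : S - 1 = cfc (fun z : ℝ => z - 1) S := by
      rw [cfc_sub (fun z : ℝ => z) (fun _ => 1) S, cfc_id' ℝ S, cfc_const_one ℝ S]
    have e2 : a - 1 = cfc (fun z : ℝ => Real.sqrt z - 1) S := by
      rw [cfc_sub Real.sqrt (fun _ => 1) S, cfc_const_one ℝ S]
    rw [e1, e2, hg, ← cfc_mul (fun z : ℝ => (Real.sqrt z + 1)⁻¹) (fun z => z - 1) S
      hgc.continuousOn (by fun_prop)]
    refine cfc_congr fun z hz => ?_
    have hz0 : 0 ≤ z := spectrum_nonneg_of_nonneg (star_mul_self_nonneg x) hz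
    have h1 : Real.sqrt z + 1 ≠ 0 := (by positivity : (0 : ℝ) < Real.sqrt z + 1).ne'
    rw [inv_mul_eq_div, div_eq_iff h1]
    nlinarith [Real.mul_self_sqrt hz0]
  have hd : a - 1 ∈ M := hga ▸ mul_mem hgM (sub_mem hSM (one_mem M))
  have hnu : ‖w + v‖ ≤ 1 := P104.Trace.norm_le_one_of_isometry hu1
  have e1 : (⟨x, hx⟩ - (u : Alg M) : Alg M)
      = ⟨(w + v) * (a - 1), mul_mem (add_mem hw.mem hv) hd⟩ := by
    refine Subtype.ext ?_
    show x - (w + v) = (w + v) * (a - 1)
    rw [hxu, mul_sub, mul_one]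
  have e2 : (⟨a - 1, hd⟩ : Alg M) = ⟨g * (S - 1), mul_mem hgM (sub_mem hSM (one_mem M))⟩ :=
    Subtype.ext hga.symm
  show ‖evec h (⟨x, hx⟩ - (u : Alg M) : Alg M)‖ ≤ _
  rw [e1]
  refine (norm_evec_contraction_mul h (add_mem hw.mem hv) hd hnu).trans ?_
  rw [e2]
  exact norm_evec_contraction_mul h hgM (sub_mem hSM (one_mem M)) hg1

/-- Bounded families in an algebra have weak limits along ultrafilters. -/
theorem exists_weak_limit {ι : Type*} (l : Ultrafilter ι) (a : ι → H →L[ℂ] H) {R : ℝ}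
    (ha : ∀ i, a i ∈ M) (hR : ∀ i, ‖a i‖ ≤ R) :
    ∃ b ∈ M, ‖b‖ ≤ R ∧ ∀ v w, Tendsto (fun i => ⟪a i v, w⟫_ℂ) (l : Filter ι) (𝓝 ⟪b v, w⟫_ℂ) := by
  obtain ⟨i₀⟩ : Nonempty ι := nonempty_of_neBot (l : Filter ι)
  have hR0 : 0 ≤ R := (norm_nonneg _).trans (hR i₀)
  have hb : ∀ i v w, ‖⟪a i v, w⟫_ℂ‖ ≤ R * ‖v‖ * ‖w‖ := fun i v w =>
    (norm_inner_le_norm _ _).trans
      (mul_le_mul_of_nonneg_right ((a i).le_of_opNorm_le (hR i) v) (norm_nonneg _))
  have hex : ∀ v w : H, ∃ L : ℂ, ‖L‖ ≤ R * ‖v‖ * ‖w‖ ∧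
      Tendsto (fun i => ⟪a i v, w⟫_ℂ) (l : Filter ι) (𝓝 L) := fun v w => by
    obtain ⟨L, hL, hle⟩ := (isCompact_closedBall (0 : ℂ) (R * ‖v‖ * ‖w‖)).ultrafilter_le_nhds
      (l.map fun i => ⟪a i v, w⟫_ℂ) (by
        rw [Ultrafilter.coe_map, le_principal_iff]
        exact Filter.mem_map.2 (Eventually.of_forall fun i => mem_closedBall_zero_iff.2 (hb i v w)))
    exact ⟨L, mem_closedBall_zero_iff.1 hL, hle⟩
  choose L hL1 hL2 using hex
  let B : H →L⋆[ℂ] H →L[ℂ] ℂ := LinearMap.mkContinuous₂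
    (LinearMap.mk₂'ₛₗ (starRingEnd ℂ) (RingHom.id ℂ) L
      (fun v v' w => tendsto_nhds_unique (hL2 (v + v') w)
        (by simpa [inner_add_left] using (hL2 v w).add (hL2 v' w)))
      (fun c v w => tendsto_nhds_unique (hL2 (c • v) w)
        (by simpa [inner_smul_left, mul_comm] using (hL2 v w).const_mul (starRingEnd ℂ c)))
      (fun v w w' => tendsto_nhds_unique (hL2 v (w + w'))
        (by simpa [inner_add_right] using (hL2 v w).add (hL2 v w')))
      (fun c v w => tendsto_nhds_unique (hL2 v (c • w))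
        (by simpa [inner_smul_right] using (hL2 v w).const_mul c)))
    R hL1
  let b : H →L[ℂ] H := InnerProductSpace.continuousLinearMapOfBilin (𝕜 := ℂ) B
  have hbv : ∀ v w, ⟪b v, w⟫_ℂ = L v w := fun v w =>
    InnerProductSpace.continuousLinearMapOfBilin_apply B v w
  have hlim : ∀ v w, Tendsto (fun i => ⟪a i v, w⟫_ℂ) (l : Filter ι) (𝓝 ⟪b v, w⟫_ℂ) := fun v w => by
    rw [hbv]; exact hL2 v w
  refine ⟨b, ?_, ?_, hlim⟩
  · rw [← SetLike.mem_coe, ← M.centralizer_centralizer]
    intro y hy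
    refine ContinuousLinearMap.ext fun v => ext_inner_right ℂ fun w => ?_
    show ⟪y (b v), w⟫_ℂ = ⟪b (y v), w⟫_ℂ
    rw [inner_left y]
    refine tendsto_nhds_unique (hlim v (star y w)) ((hlim (y v) w).congr fun i => ?_)
    rw [← inner_left y, show a i (y v) = y (a i v) from
      congrArg (fun f : H →L[ℂ] H => f v) (hy _ (ha i))]
  · refine b.opNorm_le_bound hR0 fun v => ?_
    have h1 := hL1 v (b v)
    rw [← hbv, inner_self_eq_norm_sq_to_K, norm_pow, RCLike.norm_ofReal, abs_norm] at h1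
    rcases (norm_nonneg (b v)).eq_or_lt with h0 | h0
    · rw [← h0]; positivity
    · nlinarith

/-- The trace is continuous for weak limits of bounded families. -/
theorem weakLim (h : IsNormalTrace M ξ) : (trOf h).WeakLim := by
  intro ι l a R hR
  obtain ⟨b, hbM, hbR, hb⟩ := exists_weak_limit (M := M) l (fun i => (a i : H →L[ℂ] H))
    (fun i => (a i).2) (fun i => hR i)
  refine ⟨⟨b, hbM⟩, hbR, fun y => ?_⟩
  obtain ⟨i₀⟩ : Nonempty ι := nonempty_of_neBot (l : Filter ι)
  have hR0 : 0 ≤ R := (norm_nonneg _).trans (hR i₀)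
  have e : ∀ c : Alg M, (trOf h).tr (y * c)
      = ∑' n, starRingEnd ℂ ⟪(c : H →L[ℂ] H) (ξ n), star (y : H →L[ℂ] H) (ξ n)⟫_ℂ := fun c => by
    refine (P104.Patch.tau_eq h (y * c)).trans (tsum_congr fun n => ?_)
    rw [inner_conj_symm, ContinuousLinearMap.star_eq_adjoint,
      ContinuousLinearMap.adjoint_inner_left]
    rfl
  simp only [e]
  refine tendsto_tsum_of_dominated_convergence (𝓕 := (l : Filter ι))
    (bound := fun n => R * ‖(y : H →L[ℂ] H)‖ * ‖ξ n‖ ^ 2) (h.summable.mul_left _)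
    (fun n => (Complex.continuous_conj.tendsto _).comp (hb _ _)) (Eventually.of_forall fun i n => ?_)
  rw [RCLike.norm_conj]
  refine (norm_inner_le_norm _ _).trans ?_
  calc ‖(a i : H →L[ℂ] H) (ξ n)‖ * ‖star (y : H →L[ℂ] H) (ξ n)‖
      ≤ (R * ‖ξ n‖) * (‖(y : H →L[ℂ] H)‖ * ‖ξ n‖) := by
        refine mul_le_mul ((a i : H →L[ℂ] H).le_of_opNorm_le (hR i) _) ?_ (norm_nonneg _)
          (mul_nonneg hR0 (norm_nonneg _))
        exact (star (y : H →L[ℂ] H)).le_of_opNorm_le (norm_star _).le _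
    _ = R * ‖(y : H →L[ℂ] H)‖ * ‖ξ n‖ ^ 2 := by ring

end Vale.Agent.P082
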