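import Vale.Agent.P082.Core.Spec
import Vale.Agent.P104.Patch.Setting
import Vale.Agent.P104.Type.Corner
import Vale.Agent.P104.Type.Copies

/-!
# Interfaces of the global part

A cochain on `M` is solved on a central projection `z` if, after multiplication by `z`, it is a
coboundary with controlled bound. The pieces are glued by `GlueOut`.
-/

noncomputable section

namespace Vale.Agent.P082

open scoped InnerProductSpace
open Vale.Agent.P104.Patch (Alg evec)
open Vale.Agent.P104.Red (IsCentral)

universe u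

variable {H : Type u} [NormedAddCommGroup H] [InnerProductSpace ℂ H] [CompleteSpace H]
variable {M : VonNeumannAlgebra H} {ξ : ℕ → H}

/-- The trace of a finite algebra as a `Tr`. -/
def trOf (h : P085.IsNormalTrace M ξ) : Tr (Alg M) (lp (fun _ : ℕ => H) 2) where
  e := evec h
  norm_one := P104.Patch.norm_evec_one h
  mul_le := P104.Patch.evec_mul_le h
  mul_le' := P104.Patch.evec_mul_le' h
  inner_eq a b := by rw [P104.Patch.inner_evec]; rfl
  comm a b := P104.Patch.tau_comm h a b
  faithful a ha := P104.Patch.eq_of_evec h (ha.trans (map_zero _).symm)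

/-- `f` is a coboundary on the piece `z`. -/
def Solv {k : ℕ} (C : ℝ) (f : Cochain (Alg M) (k + 1)) (z : Alg M) : Prop :=
  ∃ g : Cochain (Alg M) k, ‖g‖ ≤ C * ‖f‖ ∧
    ∀ a, z * f a = z * dHoch g a

/-- (S) pieces on which a cochain is a coboundary glue to the whole algebra. -/
def GlueOut (M : VonNeumannAlgebra H) : Prop :=
  ∀ (k : ℕ) (C : ℝ) (f : Cochain (Alg M) (k + 1)),
    (∀ z₀ : Alg M, IsCentral M (z₀ : H →L[ℂ] H) → z₀ ≠ 0 →
      ∃ z : Alg M, IsCentral M (z : H →L[ℂ] H) ∧ z₀ * z = z ∧ z ≠ 0 ∧ Solv C f z) →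
    ∃ g : Cochain (Alg M) k, ∀ a, f a = dHoch g a

/-- (I) an algebra spanned by matrices over a commutative corner has the averaging property. -/
def TypeIOut (A : Type u) [CStarAlgebra A] (V : Type u) [NormedAddCommGroup V]
    [InnerProductSpace ℂ V] : Prop :=
  ∀ (T : Tr A V) (n : ℕ) (p : A) (v : Fin n → A),
    (∀ i j, star (v i) * v j = if i = j then p else 0) → ∑ i, v i * star (v i) = 1 →
    (∀ x y, p * x * p * (p * y * p) = p * y * p * (p * x * p)) → T.MeanOut

/-- (PI) two orthogonal isometries of a piece solve every cocycle there. -/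
def HalvOut (M : VonNeumannAlgebra H) : Prop :=
  ∀ k : ℕ, ∃ C : ℝ, ∀ f : Cochain (Alg M) (k + 1), (∀ a, dHoch f a = 0) →
    ∀ z : Alg M, IsCentral M (z : H →L[ℂ] H) → P104.Red.Halvable M (z : H →L[ℂ] H) → Solv C f z

end Vale.Agent.P082
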