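import Vale.Agent.P082.Global.Spec

/-!
# Matrices over a commutative corner

The elements commuting with the diagonal `v i * star (v i)` form a commutative algebra `D`,
permuted by the permutation unitaries. Their products span the algebra, and boxes in the group of
unitaries of `D` times all permutations are invariant up to a small error.
-/

noncomputable section

namespace Vale.Agent.P082

open scoped InnerProductSpace BigOperators Topology
open Filter

universe u

namespace TypeI

/-- Shifting a box in one coordinate changes a bounded sum little. -/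
theorem box_shift {G E : Type*} [CommMonoid G] [NormedAddCommGroup E] {α : Type*} [Fintype α]
    [DecidableEq α] (g : α → G) (f : G → E) (C : ℝ) (hf : ∀ x, ‖f x‖ ≤ C) (L : ℕ) (k : α) :
    ‖(∑ e : α → Fin (L + 1), f (g k * ∏ a, g a ^ (e a : ℕ)))
        - ∑ e : α → Fin (L + 1), f (∏ a, g a ^ (e a : ℕ))‖ * (L + 1)
      ≤ 2 * C * Fintype.card (α → Fin (L + 1)) := by
  have hcard : (Fintype.card (α → Fin (L + 1)) : ℝ)
      = Fintype.card ({j // j ≠ k} → Fin (L + 1)) * (L + 1) := by
    rw [Fintype.card_congr (Equiv.funSplitAt k (Fin (L + 1))), Fintype.card_prod, Fintype.card_fin]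
    push_cast
    ring
  have hprod : ∀ (t : Fin (L + 1)) (r : {j // j ≠ k} → Fin (L + 1)),
      ∏ a, g a ^ ((Equiv.funSplitAt k (Fin (L + 1))).symm (t, r) a : ℕ)
        = g k ^ (t : ℕ) * ∏ a : {j // j ≠ k}, g a ^ (r a : ℕ) := by
    intro t r
    rw [← Finset.mul_prod_erase Finset.univ _ (Finset.mem_univ k),
      Finset.prod_subtype (p := (· ≠ k)) _ (fun x => by simp)]
    congr 1
    · simp [Equiv.funSplitAt, Equiv.piSplitAt]
    · refine Finset.prod_congr rfl fun a _ => ?_
      simp [Equiv.funSplitAt, Equiv.piSplitAt, a.2]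
  rw [← (Equiv.funSplitAt k (Fin (L + 1))).symm.sum_comp,
    ← (Equiv.funSplitAt k (Fin (L + 1))).symm.sum_comp, Fintype.sum_prod_type_right,
    Fintype.sum_prod_type_right, ← Finset.sum_sub_distrib, hcard, ← mul_assoc]
  refine mul_le_mul_of_nonneg_right ?_ (by positivity)
  refine (norm_sum_le_of_le (n := fun _ => 2 * C) _ fun r _ => ?_).trans_eq ?_
  · simp only [hprod, ← mul_assoc, ← pow_succ']
    let h : ℕ → E := fun t => f (g k ^ t * ∏ a : {j // j ≠ k}, g a ^ (r a : ℕ))
    have he : (∑ t : Fin (L + 1), h ((t : ℕ) + 1)) - ∑ t : Fin (L + 1), h (t : ℕ)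
        = h (L + 1) - h 0 := by
      rw [Fin.sum_univ_eq_sum_range (fun t => h (t + 1)), Fin.sum_univ_eq_sum_range h,
        ← Finset.sum_sub_distrib, Finset.sum_range_sub]
    calc ‖_‖ = ‖h (L + 1) - h 0‖ := congr_arg norm he
      _ ≤ 2 * C := (norm_sub_le _ _).trans (by linarith [hf (g k ^ (L + 1) *
          ∏ a : {j // j ≠ k}, g a ^ (r a : ℕ)), hf (g k ^ 0 *
          ∏ a : {j // j ≠ k}, g a ^ (r a : ℕ))])
  · rw [Finset.sum_const, Finset.card_univ, nsmul_eq_mul]
    ring

theorem norm_tr_mul_le {A V : Type u} [CStarAlgebra A] [NormedAddCommGroup V]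
    [InnerProductSpace ℂ V] (T : Tr A V) (z b : A) (u : A) (hu : ‖u‖ ≤ 1) :
    ‖T.tr (z * (u * b))‖ ≤ ‖z‖ * ‖b‖ := by
  refine (norm_inner_le_norm _ _).trans ?_
  rw [T.norm_one, one_mul]
  refine (T.mul_le z (u * b)).trans (mul_le_mul_of_nonneg_left ?_ (norm_nonneg z))
  have h := T.mul_le (u * b) 1
  rw [mul_one, T.norm_one, mul_one] at h
  exact h.trans ((norm_mul_le u b).trans (mul_le_of_le_one_left (norm_nonneg b) hu))

/-- Boxes in a commutative group times a finite group permuting it average every form. -/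
theorem mean_of_frame {A : Type u} [CStarAlgebra A] {V : Type u} [NormedAddCommGroup V]
    [InnerProductSpace ℂ V] (T : Tr A V) {G : Type u} [CommMonoid G] {K : Type} [Group K]
    [Fintype K] (inc : G →* unitary A) (P : K →* unitary A) (cj : K → G → G)
    (hcj : ∀ σ w, inc (cj σ w) * P σ = P σ * inc w)
    (hspan : Submodule.span ℂ (Set.range fun wτ : G × K =>
      ((inc wτ.1 * P wτ.2 : unitary A) : A)) = ⊤) : T.MeanOut := by
  classical
  intro p U nF F z _ ε hε
  have : Nontrivial A := ⟨⟨1, 0, fun h => by simpa [h] using T.norm_one⟩⟩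
  -- the boxes
  let g : ∀ S : Finset (G), K × {w // w ∈ S} → G :=
    fun _ ρw => cj ρw.1 ρw.2
  let X : ∀ i : Finset (G) × ℕ, K ×
      (K × {w // w ∈ i.1} → Fin (i.2 + 1)) → unitary A :=
    fun i m => inc (∏ a, g i.1 a ^ (m.2 a : ℕ)) * P m.1
  let err : (A →L[ℂ] A) → A → Finset (G) × ℕ → A := fun F u i =>
    (Fintype.card (K ×
        (K × {w // w ∈ i.1} → Fin (i.2 + 1))) : ℂ)⁻¹ •
      ∑ m, (star (X i m : A) * F ((X i m : A) * u) - u * (star (X i m : A) * F (X i m : A)))
  have herr : ∀ F u, Tendsto (err F u) atTop (𝓝 0) := by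
    intro F u
    have hu : u ∈ Submodule.span ℂ (Set.range fun wτ : G × K =>
        ((inc wτ.1 * P wτ.2 : unitary A) : A)) := by
      rw [hspan]; exact Submodule.mem_top
    induction hu using Submodule.span_induction with
    | mem u hu =>
      obtain ⟨⟨w, τ⟩, rfl⟩ := hu
      dsimp only
      have h0 : Tendsto (fun i : Finset (G) × ℕ => 2 * ‖F‖ * (1 / ((i.2 : ℝ) + 1)))
          atTop (𝓝 0) := by
        rw [← prod_atTop_atTop_eq, ← mul_zero (2 * ‖F‖)]
        exact (tendsto_one_div_add_atTop_nhds_zero_nat.comp tendsto_snd).const_mul _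
      refine squeeze_zero_norm' ?_ h0
      filter_upwards [eventually_ge_atTop (({w} : Finset (G)), 0)] with i hi
      have hw : w ∈ i.1 := hi.1 (Finset.mem_singleton_self _)
      let Ψ : unitary A → A := fun Y => star (Y : A) * F (Y : A)
      have hΨ : ∀ Y, ‖Ψ Y‖ ≤ ‖F‖ := by
        intro Y
        rw [CStarRing.norm_mem_unitary_mul _ (Unitary.star_mem Y.2)]
        refine (F.le_opNorm _).trans_eq ?_
        rw [CStarRing.norm_coe_unitary, mul_one]
      set u₀ : unitary A := inc w * P τ with hu₀
      have hterm : ∀ m, star (X i m : A) * F ((X i m : A) * u₀)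
          - u₀ * (star (X i m : A) * F (X i m : A)) = u₀ * (Ψ (X i m * u₀) - Ψ (X i m)) := by
        intro m
        simp only [Ψ, Submonoid.coe_mul, star_mul, mul_sub, ← mul_assoc,
          Unitary.mul_star_self_of_mem u₀.2, one_mul]
      have hshift : ∀ σ c, X i (σ, c) * u₀
          = inc (g i.1 (σ, ⟨w, hw⟩) * ∏ a, g i.1 a ^ (c a : ℕ)) * P (σ * τ) := by
        intro σ c
        simp only [X, hu₀]
        rw [mul_comm (g i.1 (σ, ⟨w, hw⟩)), map_mul, map_mul, mul_assoc, ← mul_assoc (P σ), ← hcj σ w]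
        simp only [g, mul_assoc]
      have hbound : ‖∑ m, (Ψ (X i m * u₀) - Ψ (X i m))‖ * ((i.2 : ℝ) + 1)
          ≤ 2 * ‖F‖ * Fintype.card (K ×
            (K × {w // w ∈ i.1} → Fin (i.2 + 1))) := by
        rw [Finset.sum_sub_distrib, Fintype.sum_prod_type, Fintype.sum_prod_type,
          ← Equiv.sum_comp (Equiv.mulRight τ) (fun σ => ∑ c, Ψ (X i (σ, c))), ← Finset.sum_sub_distrib]
        refine (mul_le_mul_of_nonneg_right (norm_sum_le _ _) (by positivity)).trans ?_
        rw [Finset.sum_mul, Fintype.card_prod, Nat.cast_mul]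
        refine (Finset.sum_le_sum fun σ _ => ?_).trans_eq (b := ∑ _σ : K,
          2 * ‖F‖ * Fintype.card (K × {w // w ∈ i.1} → Fin (i.2 + 1))) ?_
        · simp only [hshift, Equiv.coe_mulRight]
          exact box_shift (g i.1) (fun x => Ψ (inc x * P (σ * τ))) ‖F‖ (fun x => hΨ _) i.2
            (σ, ⟨w, hw⟩)
        · rw [Finset.sum_const, Finset.card_univ, nsmul_eq_mul]
          ring
      simp only [err, hterm, ← Finset.mul_sum]
      rw [norm_smul, norm_inv, Complex.norm_natCast, CStarRing.norm_coe_unitary_mul, inv_mul_le_iff₀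
        (Nat.cast_pos.mpr Fintype.card_pos), mul_one_div, mul_div_assoc', le_div_iff₀ (by positivity)]
      linarith
    | zero =>
      refine tendsto_const_nhds.congr fun i => ?_
      simp [err]
    | add u v _ _ hu hv =>
      refine (add_zero (0 : A) ▸ hu.add hv).congr fun i => ?_
      simp only [err, ← smul_add, ← Finset.sum_add_distrib]
      congr 1
      refine Finset.sum_congr rfl fun m _ => ?_
      simp only [map_add, mul_add, add_mul]
      abel
    | smul c u _ hu =>
      refine ((smul_zero c : c • (0 : A) = 0) ▸ hu.const_smul c).congr fun i => ?_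
      simp only [err, smul_comm c, Finset.smul_sum, smul_sub, map_smul, mul_smul_comm,
        smul_mul_assoc]
  -- one box for all
  have hev : ∀ᶠ i in atTop, ∀ a : Fin nF × Fin p, ‖z a.1‖ * ‖err (F a.1) (U a.2 : A) i‖ ≤ ε := by
    refine eventually_all.mpr fun a => ?_
    have := ((herr (F a.1) (U a.2 : A)).norm.const_mul ‖z a.1‖)
    rw [norm_zero, mul_zero] at this
    exact this.eventually_le_const hε
  obtain ⟨i, hi⟩ := hev.exists
  refine ⟨_, fun m => X i ((Fintype.equivFin _).symm m), Fintype.card_pos, fun a k => ?_⟩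
  refine le_trans (le_of_eq ?_) ((norm_tr_mul_le T (z a) _ (star (U k : A))
    (by rw [norm_star, CStarRing.norm_coe_unitary])).trans (hi (a, k)))
  congr 1
  simp only [err, Fintype.expect_eq_sum_div_card, Fintype.card_fin]
  rw [(Fintype.equivFin _).symm.sum_comp (fun m => T.phiU (F a) (z a) (X i m * U k)),
    (Fintype.equivFin _).symm.sum_comp (fun m => T.phiU (F a) (z a) (X i m)), ← sub_div,
    ← Finset.sum_sub_distrib, div_eq_inv_mul]
  simp only [mul_smul_comm, Finset.mul_sum, Tr.tr, map_smul, map_sum, inner_smul_right, inner_sum]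
  refine Finset.sum_congr rfl fun m _ => ?_
  congr 1
  simp only [Tr.phiU, Tr.phi2, Tr.tr, Submonoid.coe_mul, star_mul, ← inner_sub_right, ← map_sub,
    mul_sub, ← mul_assoc]
  rw [mul_assoc (z a) (star (U k : A)) (U k : A), Unitary.coe_star_mul_self, mul_one]

end TypeI

open TypeI in
/-- An algebra spanned by matrices over a commutative corner has the averaging property. -/
theorem typeIOut {A : Type u} [CStarAlgebra A] {V : Type u} [NormedAddCommGroup V]
    [InnerProductSpace ℂ V] : TypeIOut A V := by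
  classical
  intro T n q v hv hsum hcomm p U nF F z hF ε hε
  have : Nontrivial A := ⟨⟨1, 0, fun h => by simpa [h] using T.norm_one⟩⟩
  -- the diagonal projections
  obtain ⟨e, he⟩ : ∃ e : Fin n → A, ∀ i, e i = v i * star (v i) := ⟨_, fun _ => rfl⟩
  have hsum' : ∑ i, e i = 1 := by simpa only [he] using hsum
  have hvq : ∀ i, v i * q = v i := by
    intro i
    conv_rhs => rw [← one_mul (v i), ← hsum, Finset.sum_mul]
    simp [mul_assoc, hv]
  have hqq : ∀ i, q * star (v i) = star (v i) := by
    intro i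
    have h1 : star q = q := by
      rw [← (show star (v i) * v i = q by simp [hv]), star_mul, star_star]
    simpa [star_mul, h1] using congr_arg star (hvq i)
  have hee : ∀ i m, e i * e m = if i = m then e i else 0 := by
    intro i m
    rw [he, he, ← mul_assoc, mul_assoc (v i), hv]
    split_ifs with h
    · subst h; rw [hvq]
    · simp
  have hes : ∀ i, star (e i) = e i := fun i => by simp [he]
  let D : StarSubalgebra ℂ A := StarSubalgebra.centralizer ℂ (Set.range e)
  have hD : ∀ {x : A}, x ∈ D ↔ ∀ i, e i * x = x * e i := by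
    intro x
    rw [StarSubalgebra.mem_centralizer_iff, Set.forall_mem_range]
    simp [hes]
  have : IsClosed (D : Set A) := Set.isClosed_centralizer _
  have hDc : ∀ {x y : A}, x ∈ D → y ∈ D → x * y = y * x := by
    intro x y hx hy
    have hxi : ∀ (x y : A), x ∈ D → y ∈ D → ∀ i,
        x * y * e i = v i * (q * (star (v i) * x * v i) * q * (q * (star (v i) * y * v i) * q))
          * star (v i) := by
      intro x y hx hy i
      have h1 : x * y * e i = e i * x * e i * (e i * y * e i) := by
        have hy' : e i * y * e i = y * e i := by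
          rw [hD.1 hy, mul_assoc, hee, if_pos rfl]
        have hx' : e i * x * e i = x * e i := by
          rw [hD.1 hx, mul_assoc, hee, if_pos rfl]
        rw [hy', hx', mul_assoc x (e i), ← mul_assoc (e i) y, hD.1 hy, mul_assoc y (e i), hee,
          if_pos rfl, ← mul_assoc]
      rw [h1, he]
      simp only [← mul_assoc, hvq]
      simp only [mul_assoc, hqq]
      rw [← mul_assoc (star (v i)) (v i), hv, if_pos rfl]
      simp only [← mul_assoc, hvq]
    calc x * y = ∑ i, x * y * e i := by rw [← Finset.mul_sum, hsum', mul_one]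
      _ = ∑ i, y * x * e i := Finset.sum_congr rfl fun i _ => by
          rw [hxi x y hx hy i, hxi y x hy hx i, hcomm]
      _ = y * x := by rw [← Finset.mul_sum, hsum', mul_one]
  -- the permutations
  let P₀ : Equiv.Perm (Fin n) → A := fun σ => ∑ i, v (σ i) * star (v i)
  have hPmul : ∀ σ τ, P₀ σ * P₀ τ = P₀ (σ * τ) := by
    intro σ τ
    simp only [P₀, Finset.sum_mul, Finset.mul_sum]
    refine Finset.sum_congr rfl fun m _ => ?_
    rw [Finset.sum_eq_single (τ m)]
    · rw [← mul_assoc, mul_assoc (v (σ (τ m))), hv, if_pos rfl, hvq, Equiv.Perm.mul_apply]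
    · intro i _ hi
      rw [← mul_assoc, mul_assoc (v (σ i)), hv, if_neg hi]
      simp
    · simp
  have hPone : P₀ 1 = 1 := hsum
  have hPstar : ∀ σ, star (P₀ σ) = P₀ σ⁻¹ := by
    intro σ
    simp only [P₀, star_sum, star_mul, star_star]
    rw [← Equiv.sum_comp σ (fun i => v (σ⁻¹ i) * star (v i))]
    simp
  have hPmem : ∀ σ, P₀ σ ∈ unitary A := fun σ =>
    Unitary.mem_iff.mpr ⟨by rw [hPstar, hPmul, inv_mul_cancel, hPone],
      by rw [hPstar, hPmul, mul_inv_cancel, hPone]⟩
  let P : Equiv.Perm (Fin n) →* unitary A :=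
    { toFun := fun σ => ⟨P₀ σ, hPmem σ⟩
      map_one' := Subtype.ext hPone
      map_mul' := fun σ τ => Subtype.ext (hPmul σ τ).symm }
  have hPe : ∀ σ i, e (σ i) * P₀ σ = P₀ σ * e i := by
    intro σ i
    simp only [P₀, Finset.sum_mul, Finset.mul_sum, he]
    rw [Finset.sum_eq_single i, Finset.sum_eq_single i]
    · rw [← mul_assoc, mul_assoc (v (σ i)), hv, if_pos rfl, hvq, ← mul_assoc,
        mul_assoc (v (σ i)) (star (v i)), hv, if_pos rfl, hvq]
    · intro m _ hm
      rw [← mul_assoc, mul_assoc (v (σ m)), hv, if_neg hm]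
      simp
    · simp
    · intro m _ hm
      rw [← mul_assoc, mul_assoc (v (σ i)), hv, if_neg fun h => hm (σ.injective h).symm]
      simp
    · simp
  have hconjD : ∀ (σ : Equiv.Perm (Fin n)) (x : A), x ∈ D → P₀ σ * x * star (P₀ σ) ∈ D := by
    intro σ x hx
    rw [hD]
    intro i
    obtain ⟨m, rfl⟩ := σ.surjective i
    rw [hPstar, ← mul_assoc, ← mul_assoc, hPe, mul_assoc (P₀ σ) (e m), hD.1 hx, mul_assoc _ _ (e (σ m))]
    have := hPe σ⁻¹ (σ m)
    rw [Equiv.Perm.coe_inv, Equiv.symm_apply_apply] at this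
    rw [← this, ← mul_assoc, ← mul_assoc]
  -- the commutative group
  let : CommMonoid (unitary D) :=
    { (inferInstance : Monoid (unitary D)) with
      mul_comm := fun x y => Subtype.ext (Subtype.ext (hDc (x : D).2 (y : D).2)) }
  let inc : unitary D →* unitary A :=
    { toFun := fun x => ⟨((x : D) : A), Unitary.mem_iff.mpr
        ⟨congr_arg Subtype.val (Unitary.coe_star_mul_self x),
          congr_arg Subtype.val (Unitary.coe_mul_star_self x)⟩⟩
      map_one' := rfl
      map_mul' := fun _ _ => rfl }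
  have hinc : ∀ (σ : Equiv.Perm (Fin n)) (w : unitary D), ∃ w' : unitary D,
      inc w' * P σ = P σ * inc w := by
    intro σ w
    have hmem := hconjD σ _ (w : D).2
    have hu : P₀ σ * ((w : D) : A) * star (P₀ σ) ∈ unitary A :=
      mul_mem (mul_mem (hPmem σ) (inc w).2) (Unitary.star_mem (hPmem σ))
    refine ⟨⟨⟨_, hmem⟩, Unitary.mem_iff.mpr ⟨Subtype.ext (Unitary.star_mul_self_of_mem hu),
      Subtype.ext (Unitary.mul_star_self_of_mem hu)⟩⟩, Subtype.ext ?_⟩
    show P₀ σ * ((w : D) : A) * star (P₀ σ) * P₀ σ = P₀ σ * ((w : D) : A)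
    rw [mul_assoc _ (star (P₀ σ)), Unitary.star_mul_self_of_mem (hPmem σ), mul_one]
  choose cj hcj using hinc
  -- the algebra is spanned
  have hspan : Submodule.span ℂ (Set.range fun wτ : unitary D × Equiv.Perm (Fin n) =>
      ((inc wτ.1 * P wτ.2 : unitary A) : A)) = ⊤ := by
    rw [eq_top_iff]
    intro x _
    have hd : ∀ y ∈ D, ∀ τ, y * P₀ τ ∈ Submodule.span ℂ
        (Set.range fun wτ : unitary D × Equiv.Perm (Fin n) =>
          ((inc wτ.1 * P wτ.2 : unitary A) : A)) := by
      intro y hy τ
      have hy' : (⟨y, hy⟩ : D) ∈ Submodule.span ℂ (unitary D : Set D) := by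
        rw [CStarAlgebra.span_unitary]; exact Submodule.mem_top
      have := Submodule.apply_mem_span_image_of_mem_span
        ((LinearMap.mulRight ℂ (P₀ τ)) ∘ₗ D.toSubalgebra.val.toLinearMap) hy'
      refine Submodule.span_mono ?_ this
      rintro _ ⟨w, hw, rfl⟩
      exact ⟨(⟨w, hw⟩, τ), rfl⟩
    have hx : x = ∑ i, ∑ m, e i * x * e m := by
      simp only [← Finset.mul_sum, ← Finset.sum_mul, hsum', mul_one, one_mul]
    rw [hx]
    refine sum_mem fun i _ => sum_mem fun m _ => ?_
    have h1 : e i * x * e m = e i * (x * P₀ (Equiv.swap i m)) * e i * P₀ (Equiv.swap i m) := by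
      have h := hPe (Equiv.swap i m) i
      rw [Equiv.swap_apply_left] at h
      rw [← mul_assoc (e i) x, mul_assoc _ (P₀ _) (e i), ← h, ← mul_assoc,
        mul_assoc _ (P₀ _) (P₀ _), hPmul, Equiv.swap_mul_self, hPone, mul_one]
    rw [h1]
    refine hd _ (hD.2 fun r => ?_) _
    rw [mul_assoc _ (e i) (e r), ← mul_assoc (e r), ← mul_assoc (e r), hee, hee]
    rcases eq_or_ne r i with h | h
    · subst h; simp [mul_assoc]
    · simp [h, Ne.symm h]
  exact mean_of_frame T inc P cj hcj hspan p U nF F z hF ε hε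

end Vale.Agent.P082
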